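import Mathlib

/-! Arithmetic of the constants in the filling step. -/

namespace Vale.Agent.P110.Exist.Fill

/-- The band width `w = ⌊ηN/8⌋ + 1`. -/
theorem width_facts {η : ℝ} {N : ℕ} (hη : 0 < η) (hηN : 416 ≤ η * N) :
    η * N / 8 ≤ (⌊η * N / 8⌋₊ + 1 : ℕ) ∧
      ((N + 2 * (6 * (⌊η * N / 8⌋₊ + 1)) + 1 : ℕ) : ℝ) ≤ N * (1 + 2 * η) := by
  have h1 := Nat.lt_floor_add_one (η * N / 8)
  have h2 := Nat.floor_le (show 0 ≤ η * N / 8 by positivity)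
  push_cast
  constructor <;> nlinarith

theorem spencer_const {η κ h : ℝ} {N nT H : ℕ} (hη : 0 < η) (hη' : η ≤ 1)
    (hh : h = 10000 / η ^ 6) (hκdef : κ = η ^ 24 / 10 ^ 30) (hNpos : (0 : ℝ) < N)
    (hT2 : (nT : ℝ) ≤ 2 * N) (hβ : Real.sqrt N / H ≤ h / Real.sqrt N) :
    42 * (Real.sqrt N / H) *
      Real.sqrt (2 * Real.sqrt (400 * (nT : ℝ) * (32 * κ * N / (h * η)))) ≤ η := by
  have hh0 : 0 < h := by rw [hh]; positivity
  have hκ0 : 0 < κ := by rw [hκdef]; positivity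
  have hsqrtN : 0 < Real.sqrt N := Real.sqrt_pos.2 hNpos
  set n₀ : ℝ := 32 * κ * N / (h * η) with hn₀
  have h1 : Real.sqrt (400 * (nT : ℝ) * n₀) ≤ N * (η ^ 14 / 10 ^ 14) := by
    rw [Real.sqrt_le_iff]
    refine ⟨by positivity, ?_⟩
    refine (mul_le_mul_of_nonneg_right (mul_le_mul_of_nonneg_left hT2 (by norm_num))
      (by positivity)).trans ?_
    have e : 400 * (2 * (N : ℝ)) * n₀ = (N : ℝ) ^ 2 * (η ^ 29 * (25600 / 10 ^ 34)) := by
      rw [hn₀, hκdef, hh]; field_simp; ring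
    rw [e, mul_pow, div_pow, ← pow_mul]
    refine mul_le_mul_of_nonneg_left ?_ (sq_nonneg _)
    have h29 : η ^ 29 ≤ η ^ (14 * 2) := pow_le_pow_of_le_one hη.le hη' (by norm_num)
    calc η ^ 29 * (25600 / 10 ^ 34) ≤ η ^ (14 * 2) * (1 / (10 ^ 14) ^ 2) :=
          mul_le_mul h29 (by norm_num) (by norm_num) (by positivity)
      _ = _ := by ring
  have h2 : Real.sqrt (2 * Real.sqrt (400 * (nT : ℝ) * n₀)) ≤
      Real.sqrt N * (2 * η ^ 7 / 10 ^ 7) := by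
    rw [Real.sqrt_le_iff]
    refine ⟨by positivity, ?_⟩
    rw [mul_pow, Real.sq_sqrt hNpos.le]
    refine (mul_le_mul_of_nonneg_left h1 two_pos.le).trans ?_
    have : (0 : ℝ) ≤ N * η ^ 14 := by positivity
    have e : (N : ℝ) * (2 * η ^ 7 / 10 ^ 7) ^ 2 = N * η ^ 14 * (4 / 10 ^ 14) := by ring
    rw [e]; nlinarith
  refine (mul_le_mul (mul_le_mul_of_nonneg_left hβ (by norm_num)) h2 (Real.sqrt_nonneg _)
    (by positivity)).trans ?_
  rw [show 42 * (h / Real.sqrt N) * (Real.sqrt N * (2 * η ^ 7 / 10 ^ 7)) =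
    h * η ^ 7 * (84 / 10 ^ 7) by field_simp; ring, hh]
  rw [show 10000 / η ^ 6 * η ^ 7 * (84 / 10 ^ 7) = η * (84 / 1000) by field_simp; ring]
  nlinarith

theorem kernel_err {η κ h L : ℝ} {N H w : ℕ} (hη : 0 < η) (hη' : η ≤ 1)
    (hh : h = 10000 / η ^ 6) (hκdef : κ = η ^ 24 / 10 ^ 30) (hHhi : (H : ℝ) * h ≤ 2 * N)
    (hκh : κ * h ≤ 1) (hwlo : η * N / 8 ≤ w) (h416 : 416 ≤ η ^ 2 * N)
    (hL : L = 10 / η ^ 2 * (H + κ * N) + 100 / η ^ 4 * (H + κ * N)) :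
    (L + 26) / w + 2 * κ * (N : ℝ) ^ 2 / (w : ℝ) ^ 2 ≤ 2 * η := by
  have hNpos : (0 : ℝ) < N := by
    rcases Nat.eq_zero_or_pos N with h0 | h0
    · rw [h0] at h416; norm_num at h416
    · exact_mod_cast h0
  have hwpos : (0 : ℝ) < w := lt_of_lt_of_le (by positivity) hwlo
  have hh0 : 0 < h := by rw [hh]; positivity
  have hκ0 : 0 < κ := by rw [hκdef]; positivity
  have i1 : (L + 26) / w ≤ η := by
    rw [div_le_iff₀ hwpos]
    have i2 : (H : ℝ) + κ * N ≤ 3 * N / h := by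
      rw [le_div_iff₀ hh0]; nlinarith
    have i0 : 10 / η ^ 2 ≤ 10 / η ^ 4 := div_le_div_of_nonneg_left (by norm_num)
      (by positivity) (pow_le_pow_of_le_one hη.le hη' (by norm_num))
    have i3 : L ≤ 110 / η ^ 4 * (3 * N / h) := by
      calc L ≤ (10 / η ^ 4 + 100 / η ^ 4) * (H + κ * N) := by
            rw [hL, add_mul]
            exact add_le_add (mul_le_mul_of_nonneg_right i0 (by positivity)) le_rfl
        _ ≤ (10 / η ^ 4 + 100 / η ^ 4) * (3 * N / h) :=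
            mul_le_mul_of_nonneg_left i2 (by positivity)
        _ = _ := by ring
    have i4 : 110 / η ^ 4 * (3 * (N : ℝ) / h) = η ^ 2 * N * (33 / 1000) := by
      rw [hh]; field_simp; ring
    nlinarith
  have i5 : 2 * κ * (N : ℝ) ^ 2 / (w : ℝ) ^ 2 ≤ η := by
    rw [div_le_iff₀ (by positivity)]
    have i6 : κ * 128 ≤ η ^ 3 := by
      rw [hκdef]
      have := pow_le_pow_of_le_one hη.le hη' (show 3 ≤ 24 by norm_num)
      nlinarith
    have i7 : (η * N / 8) ^ 2 ≤ (w : ℝ) ^ 2 := pow_le_pow_left₀ (by positivity) hwlo 2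
    nlinarith [mul_le_mul_of_nonneg_left i7 hη.le,
      mul_le_mul_of_nonneg_right i6 (sq_nonneg (N : ℝ))]
  linarith

/-- Basic facts about the constants. -/
theorem const_facts {η κ h : ℝ} {N : ℕ} (hη : 0 < η) (hη' : η ≤ 1) (hh : h = 10000 / η ^ 6)
    (hκdef : κ = η ^ 24 / 10 ^ 30) (hN1 : h ^ 2 / η ^ 2 ≤ N) (hN2 : 416 / η ^ 2 ≤ N) :
    10000 ≤ h ∧ h ^ 2 ≤ η ^ 2 * N ∧ 416 ≤ η ^ 2 * N ∧ (0 : ℝ) < N ∧ h ≤ N ∧ 416 ≤ η * N ∧
      κ * h ≤ η / 10 ^ 20 ∧ κ ≤ η / 16 := by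
  have hh0 : 0 < h := by rw [hh]; positivity
  have hκ0 : 0 < κ := by rw [hκdef]; positivity
  have hh1 : 10000 ≤ h := by
    rw [hh, le_div_iff₀ (by positivity)]
    exact mul_le_of_le_one_right (by norm_num) (pow_le_one₀ hη.le hη')
  have hηsq : η ^ 2 ≤ 1 := pow_le_one₀ hη.le hη'
  have hhN : h ^ 2 ≤ η ^ 2 * N := by
    rw [div_le_iff₀ (by positivity)] at hN1; linarith
  have h416 : 416 ≤ η ^ 2 * N := by
    rw [div_le_iff₀ (by positivity)] at hN2; linarith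
  have hNpos : (0 : ℝ) < N := by
    rcases Nat.eq_zero_or_pos N with h0 | h0
    · rw [h0] at h416; norm_num at h416
    · exact_mod_cast h0
  have hκh : κ * h ≤ η / 10 ^ 20 := by
    have h2 : κ * h = η ^ 18 / 10 ^ 26 := by rw [hκdef, hh]; field_simp; ring
    have h3 : η ^ 18 ≤ η := pow_le_of_le_one hη.le hη' (by norm_num)
    rw [h2, div_le_div_iff₀ (by norm_num) (by norm_num)]
    nlinarith
  refine ⟨hh1, hhN, h416, hNpos, by nlinarith,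
    h416.trans (mul_le_mul_of_nonneg_right (by nlinarith) hNpos.le), hκh, ?_⟩
  have : κ ≤ κ * h := le_mul_of_one_le_right hκ0.le (by linarith)
  linarith

/-- Facts about `H = ⌈N/h⌉`. -/
theorem piece_facts {η κ h : ℝ} {N H : ℕ} (hη : 0 < η) (hη' : η ≤ 1) (hκ : 0 < κ)
    (hHdef : H = ⌈(N : ℝ) / h⌉₊) (hh1 : 10000 ≤ h) (hhN' : h ≤ N) (hNpos : (0 : ℝ) < N)
    (hκh : κ * h ≤ η / 10 ^ 20) (hhN : h ^ 2 ≤ η ^ 2 * N) :
    0 < H ∧ (H : ℝ) * h ≤ 2 * N ∧ κ * N ≤ 4 * (H : ℝ) ∧ 2 * H ≤ N ∧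
      Real.sqrt N / H ≤ h / Real.sqrt N ∧ Real.sqrt N / H ≤ η ∧
      κ * N / (2 * H : ℕ) ≤ η / 2 ∧
      8 * κ * (2 * H : ℕ) / η ≤ 32 * κ * N / (h * η) := by
  have hh0 : 0 < h := by linarith
  have hH : 0 < H := by rw [hHdef]; exact Nat.ceil_pos.2 (by positivity)
  have hHr : (0 : ℝ) < H := by exact_mod_cast hH
  have hNH : (N : ℝ) ≤ H * h := by
    rw [← div_le_iff₀ hh0, hHdef]; exact Nat.le_ceil _
  have hHhi : (H : ℝ) * h ≤ 2 * N := by
    have := Nat.ceil_lt_add_one (show 0 ≤ (N : ℝ) / h by positivity)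
    rw [← hHdef, ← sub_lt_iff_lt_add, lt_div_iff₀ hh0] at this
    linarith
  have hsqrtN : 0 < Real.sqrt N := Real.sqrt_pos.2 hNpos
  have hβ : Real.sqrt N / H ≤ h / Real.sqrt N := by
    rw [div_le_div_iff₀ hHr hsqrtN, Real.mul_self_sqrt hNpos.le]; linarith
  have hκN : κ * N ≤ H * (κ * h) := by
    have := mul_le_mul_of_nonneg_left hNH hκ.le
    linarith
  refine ⟨hH, hHhi, ?_, ?_, hβ, hβ.trans ?_, ?_, ?_⟩
  · nlinarith
  · have : (2 * H : ℝ) ≤ N := by nlinarith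
    exact_mod_cast this
  · rw [div_le_iff₀ hsqrtN]
    have h1 : h ^ 2 ≤ (η * Real.sqrt N) ^ 2 := by rw [mul_pow, Real.sq_sqrt hNpos.le]; exact hhN
    exact (pow_le_pow_iff_left₀ hh0.le (by positivity) two_ne_zero).1 h1
  · push_cast
    rw [div_le_iff₀ (by positivity)]
    nlinarith
  · push_cast
    rw [div_le_div_iff₀ hη (by positivity)]
    nlinarith [mul_le_mul_of_nonneg_left hHhi (show 0 ≤ 16 * κ * η by positivity)]

end Vale.Agent.P110.Exist.Fill
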