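import Vale.Agent.P110.Exist.Fill.Defs
import Vale.Agent.P110.Parseval

/-! Fourier coefficients of the filled target and Parseval for real sequences. -/

namespace Vale.Agent.P110.Exist.Fill

open Finset
open scoped ComplexConjugate

theorem norm_fe (x : ℝ) : ‖fe x‖ = 1 := by rw [fe, Complex.norm_exp_ofReal_mul_I]

theorem fe_add (x y : ℝ) : fe (x + y) = fe x * fe y := by
  rw [fe, fe, fe, ← Complex.exp_add]; push_cast; ring_nf

theorem fe_conj (x : ℝ) : conj (fe x) = fe (-x) := by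
  rw [fe, fe, ← Complex.exp_conj, map_mul, Complex.conj_ofReal, Complex.conj_I]
  push_cast; ring_nf

theorem fe_int (n : ℤ) : fe n = 1 := by
  rw [fe, show (((2 * Real.pi * (n : ℝ) : ℝ) : ℂ) * Complex.I) =
    (n : ℂ) * (2 * Real.pi * Complex.I) by push_cast; ring]
  exact Complex.exp_int_mul_two_pi_mul_I n

@[fun_prop]
theorem continuous_fe : Continuous fe := by unfold fe; fun_prop

theorem norm_fe_sub_fe_le (x y : ℝ) : ‖fe x - fe y‖ ≤ 2 * Real.pi * |x - y| := by
  have h : fe x - fe y = fe y * (fe (x - y) - 1) := by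
    rw [mul_sub, ← fe_add, mul_one, add_sub_cancel]
  rw [h, norm_mul, norm_fe, one_mul, fe,
    show (((2 * Real.pi * (x - y) : ℝ) : ℂ) * Complex.I) =
      Complex.I * ((2 * Real.pi * (x - y) : ℝ) : ℂ) by ring]
  refine (Real.norm_exp_I_mul_ofReal_sub_one_le).trans ?_
  rw [Real.norm_eq_abs, abs_mul, abs_of_pos Real.two_pi_pos]

/-- Fourier coefficient of `U * g` against `fe (t φ)`. -/
noncomputable def fcoef (U g : ℝ → ℂ) (t : ℤ) : ℂ :=
  ∫ φ in (0 : ℝ)..1, U φ * g φ * fe (t * φ)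

variable {U g : ℝ → ℂ}

theorem fcoef_eq_re (hU : ∀ x, U (x + 1) = U x ∧ U (-x) = conj (U x))
    (hgp : ∀ x, g (x + 1) = g x) (hgs : ∀ x, g (-x) = conj (g x)) (t : ℤ) :
    fcoef U g t = ((fcoef U g t).re : ℂ) := by
  refine (Complex.conj_eq_iff_re.1 ?_).symm
  unfold fcoef
  rw [← intervalIntegral.intervalIntegral_conj]
  have h : ∀ φ : ℝ, conj (U φ * g φ * fe (t * φ)) = (fun x => U x * g x * fe (t * x)) (-φ) := by
    intro φ
    simp only [map_mul, fe_conj, (hU φ).2, hgs φ, mul_neg]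
  simp only [h]
  rw [intervalIntegral.integral_comp_neg (fun x => U x * g x * fe (t * x)), neg_zero]
  have hper : Function.Periodic (fun x => U x * g x * fe (t * x)) 1 := fun x => by
    simp only [(hU x).1, hgp x]
    rw [mul_add, fe_add, mul_one, fe_int, mul_one]
  have := hper.intervalIntegral_add_eq (-1) 0
  simpa using this

theorem abs_fcoef_re_le (hU : ∀ x, ‖U x‖ = 1) (t : ℤ) :
    |(fcoef U g t).re| ≤ ∫ φ in (0 : ℝ)..1, ‖g φ‖ := by
  refine (Complex.abs_re_le_norm _).trans ((intervalIntegral.norm_integral_le_integral_norm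
    zero_le_one).trans (le_of_eq ?_))
  congr 1
  funext φ
  rw [norm_mul, norm_mul, hU, norm_fe, one_mul, mul_one]

theorem fcoef_add {h : ℝ → ℂ} (hU : Continuous U) (hg : Continuous g) (hh : Continuous h) (t : ℤ) :
    fcoef U (fun x => g x + h x) t = fcoef U g t + fcoef U h t := by
  unfold fcoef
  rw [← intervalIntegral.integral_add
    ((show Continuous fun x => U x * g x * fe (t * x) by fun_prop).intervalIntegrable _ _)
    ((show Continuous fun x => U x * h x * fe (t * x) by fun_prop).intervalIntegrable _ _)]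
  congr 1; funext x; ring

theorem fcoef_sum {α : Type} (S : Finset α) (σ : α → ℝ) (G : α → ℝ → ℂ) (hU : Continuous U)
    (hG : ∀ i ∈ S, Continuous (G i)) (t : ℤ) :
    fcoef U (fun x => ∑ i ∈ S, (σ i : ℂ) * G i x) t = ∑ i ∈ S, (σ i : ℂ) * fcoef U (G i) t := by
  unfold fcoef
  simp only [mul_sum, sum_mul, ← intervalIntegral.integral_const_mul]
  rw [intervalIntegral.integral_finsetSum]
  · refine sum_congr rfl fun i _ => ?_
    congr 1; funext x; ring
  · intro i hi
    have := hG i hi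
    exact (show Continuous fun x => U x * ((σ i : ℂ) * G i x) * fe (t * x) by
      fun_prop).intervalIntegrable _ _

theorem parseval_evalP (x : ℕ → ℝ) (M : ℕ) :
    ∫ θ in (0 : ℝ)..2 * Real.pi, ‖evalP x M θ‖ ^ 2 = 2 * Real.pi * ∑ k ∈ range M, x k ^ 2 := by
  have h := integral_norm_sq_trig ((range M).map Nat.castEmbedding)
    (fun n => (x n.toNat : ℂ)) 0
  rw [zero_add] at h
  simp only [sum_map, Nat.castEmbedding_apply, Int.toNat_natCast, Int.cast_natCast,
    Complex.norm_real, Real.norm_eq_abs, sq_abs] at h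
  exact h

/-- A nearly flat polynomial with coefficients bounded by one has small total deficiency. -/
theorem deficiency_le (x : ℕ → ℝ) (M : ℕ) (hx : ∀ k < M, |x k| ≤ 1) {δ : ℝ} (hδ1 : δ ≤ 1)
    (h : ∀ θ, (1 - δ) * Real.sqrt M ≤ ‖evalP x M θ‖) :
    ∑ k ∈ range M, (1 - |x k|) ≤ 2 * δ * M := by
  have hcont : Continuous fun θ => ‖evalP x M θ‖ ^ 2 := by unfold evalP; fun_prop
  have hle : ∀ θ : ℝ, (1 - δ) ^ 2 * M ≤ ‖evalP x M θ‖ ^ 2 := fun θ => by
    rw [← Real.sq_sqrt (show (0 : ℝ) ≤ M by positivity), ← mul_pow]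
    exact pow_le_pow_left₀ (mul_nonneg (by linarith) (Real.sqrt_nonneg _)) (h θ) 2
  have h1 : (2 * Real.pi) * ((1 - δ) ^ 2 * M) ≤ 2 * Real.pi * ∑ k ∈ range M, x k ^ 2 := by
    rw [← parseval_evalP]
    refine le_trans (le_of_eq ?_) (intervalIntegral.integral_mono_on Real.two_pi_pos.le
      (intervalIntegrable_const (c := (1 - δ) ^ 2 * (M : ℝ))) (hcont.intervalIntegrable _ _)
      fun θ _ => hle θ)
    rw [intervalIntegral.integral_const, smul_eq_mul, sub_zero]
  have h2 := le_of_mul_le_mul_left h1 Real.two_pi_pos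
  have h3 : ∑ k ∈ range M, (1 - |x k|) ≤ ∑ k ∈ range M, (1 - x k ^ 2) := by
    refine sum_le_sum fun k hk => ?_
    have := hx k (mem_range.1 hk)
    nlinarith [sq_abs (x k), abs_nonneg (x k)]
  rw [sum_sub_distrib (f := fun _ => (1 : ℝ)) (g := fun k => x k ^ 2), sum_const, card_range,
    nsmul_one] at h3
  have : (0 : ℝ) ≤ M := by positivity
  nlinarith [mul_nonneg (sq_nonneg δ) this]

end Vale.Agent.P110.Exist.Fill
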