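import Vale.Agent.P110.Exist.Fill.Defs

/-! Integrals over the pieces `[(k+c)/G, (k+1+c)/G]` and the number of pieces that are used. -/

namespace Vale.Agent.P110.Exist.Fill

open Finset

theorem integral_split (f : ℝ → ℝ) (hf : Continuous f) (hp : ∀ θ, f (θ + 1) = f θ) (G : ℕ)
    (hG : 0 < G) (c : ℝ) :
    (∫ θ in (0 : ℝ)..1, f θ) =
      ∑ k ∈ range G, ∫ θ in (((k : ℝ) + c) / G)..(((k : ℝ) + 1 + c) / G), f θ := by
  have h := intervalIntegral.sum_integral_adjacent_intervals (f := f) (μ := MeasureTheory.volume)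
    (a := fun k : ℕ => ((k : ℝ) + c) / G) (n := G) fun k _ => hf.intervalIntegrable _ _
  simp only [Nat.cast_add, Nat.cast_one] at h
  rw [h, Nat.cast_zero, zero_add]
  have hper : Function.Periodic f 1 := hp
  have := hper.intervalIntegral_add_eq 0 (c / G)
  rw [zero_add] at this
  rw [this]
  congr 1
  have : (G : ℝ) ≠ 0 := by positivity
  field_simp
  ring

/-- A function bounded by one that vanishes outside few pieces has small mean. -/
theorem integral_le_card (f : ℝ → ℝ) (hf : Continuous f) (hp : ∀ θ, f (θ + 1) = f θ) (G : ℕ)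
    (hG : 0 < G) (c : ℝ) (hle : ∀ θ, f θ ≤ 1) (P : Finset ℕ)
    (hz : ∀ k < G, k ∉ P → ∀ θ, ((k : ℝ) + c) / G < θ → θ < ((k : ℝ) + 1 + c) / G → f θ = 0) :
    (∫ θ in (0 : ℝ)..1, f θ) ≤ (#P : ℝ) / G := by
  rw [integral_split f hf hp G hG c]
  have hle' : ∀ k : ℕ, ((k : ℝ) + c) / G ≤ ((k : ℝ) + 1 + c) / G := fun k =>
    div_le_div_of_nonneg_right (by linarith) (by positivity)
  have hterm : ∀ k ∈ range G,
      (∫ θ in (((k : ℝ) + c) / G)..(((k : ℝ) + 1 + c) / G), f θ) ≤
        if k ∈ P then (G : ℝ)⁻¹ else 0 := by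
    intro k hk
    split_ifs with h
    · refine (intervalIntegral.integral_mono_on (hle' k) (hf.intervalIntegrable _ _)
        intervalIntegrable_const fun θ _ => hle θ).trans (le_of_eq ?_)
      rw [intervalIntegral.integral_const, smul_eq_mul, mul_one]
      field_simp
      ring
    · refine le_of_eq ?_
      rcases (hle' k).lt_or_eq with hlt | heq
      · have hzero : ∀ θ ∈ Set.Icc (((k : ℝ) + c) / G) (((k : ℝ) + 1 + c) / G), f θ = 0 := by
          intro θ hθ
          have hcl : θ ∈ closure (Set.Ioo (((k : ℝ) + c) / G) (((k : ℝ) + 1 + c) / G)) := by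
            rwa [closure_Ioo hlt.ne]
          have hsub : closure (Set.Ioo (((k : ℝ) + c) / G) (((k : ℝ) + 1 + c) / G)) ⊆
              {x | f x = 0} :=
            closure_minimal (fun x hx => hz k (mem_range.1 hk) h x hx.1 hx.2)
              (isClosed_eq hf continuous_const)
          exact hsub hcl
        rw [intervalIntegral.integral_congr (g := fun _ => (0 : ℝ))
          (by rw [Set.uIcc_of_le (hle' k)]; exact fun θ hθ => hzero θ hθ)]
        simp
      · rw [heq]; simp
  refine (sum_le_sum hterm).trans ?_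
  rw [sum_ite, sum_const, sum_const, smul_zero, add_zero, nsmul_eq_mul, ← div_eq_mul_inv]
  refine div_le_div_of_nonneg_right ?_ (by positivity)
  exact_mod_cast card_le_card fun k hk => (mem_filter.1 hk).2

/-- Few pieces meet the set where `r < 1 - η`. -/
theorem card_used_le {η κ : ℝ} {N : ℕ} {r : ℝ → ℝ} (G : ℕ) (hG : 0 < G) (c : ℝ) (hη : 0 < η)
    (hη1 : η ≤ 1) (hκ : 0 ≤ κ) (hκ1 : κ ≤ 1) (hp : ∀ θ, r (θ + 1) = r θ) (h0 : ∀ θ, 0 ≤ r θ)
    (h1 : ∀ θ, r θ ≤ 1 + κ) (hlip : ∀ θ φ, |r θ - r φ| ≤ κ * N * |θ - φ|)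
    (hint : 1 - κ ≤ ∫ θ in (0 : ℝ)..1, r θ ^ 2) (hsmall : κ * N / G ≤ η / 2) (P : Finset ℕ)
    (hP : ∀ k ∈ P, k < G ∧ ∃ θ, ((k : ℝ) + c) / G ≤ θ ∧ θ ≤ ((k : ℝ) + 1 + c) / G ∧ r θ < 1 - η) :
    (#P : ℝ) ≤ 8 * κ * G / η := by
  have hr : Continuous r := by
    have : LipschitzWith (κ * N).toNNReal r := LipschitzWith.of_dist_le_mul fun x y => by
      rw [Real.dist_eq, Real.dist_eq, Real.coe_toNNReal _ (by positivity)]
      exact hlip x y
    exact this.continuous
  let f : ℝ → ℝ := fun θ => (1 + κ) ^ 2 - r θ ^ 2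
  have hf : Continuous f := by fun_prop
  have hfp : ∀ θ, f (θ + 1) = f θ := fun θ => by simp only [f, hp]
  have hf0 : ∀ θ, 0 ≤ f θ := fun θ => sub_nonneg.2 (pow_le_pow_left₀ (h0 θ) (h1 θ) 2)
  have htot : (∫ θ in (0 : ℝ)..1, f θ) ≤ 4 * κ := by
    simp only [f]
    rw [intervalIntegral.integral_sub intervalIntegrable_const
      ((show Continuous fun θ => r θ ^ 2 by fun_prop).intervalIntegrable _ _)]
    simp only [intervalIntegral.integral_const, smul_eq_mul, sub_zero, one_mul]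
    nlinarith
  rw [integral_split f hf hfp G hG c] at htot
  have hle' : ∀ k : ℕ, ((k : ℝ) + c) / G ≤ ((k : ℝ) + 1 + c) / G := fun k =>
    div_le_div_of_nonneg_right (by linarith) (by positivity)
  have hG' : (0 : ℝ) < G := by exact_mod_cast hG
  have hpiece : ∀ k ∈ P, η / 2 / G ≤
      ∫ θ in (((k : ℝ) + c) / G)..(((k : ℝ) + 1 + c) / G), f θ := by
    intro k hk
    obtain ⟨-, θ₀, ha, hb, hlt⟩ := hP k hk
    refine le_trans (le_of_eq ?_) (intervalIntegral.integral_mono_on (hle' k)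
      (intervalIntegrable_const (c := η / 2)) (hf.intervalIntegrable _ _) fun θ hθ => ?_)
    · rw [intervalIntegral.integral_const, smul_eq_mul]
      field_simp
      ring
    · have hd : |θ - θ₀| ≤ 1 / G := by
        have e : ((k : ℝ) + 1 + c) / G = ((k : ℝ) + c) / G + 1 / G := by ring
        rw [abs_le]; constructor <;> linarith [hθ.1, hθ.2]
      have h2 : |r θ - r θ₀| ≤ η / 2 := by
        refine (hlip θ θ₀).trans ((mul_le_mul_of_nonneg_left hd (by positivity)).trans ?_)
        rw [mul_one_div]; exact hsmall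
      have h3 : r θ ≤ 1 - η / 2 := by linarith [(abs_le.1 h2).2]
      simp only [f]
      nlinarith [h0 θ]
  have hsum : (#P : ℝ) * (η / 2 / G) ≤ 4 * κ := by
    rw [← nsmul_eq_mul]
    refine (card_nsmul_le_sum P _ _ hpiece).trans (le_trans ?_ htot)
    exact sum_le_sum_of_subset_of_nonneg (fun k hk => mem_range.2 (hP k hk).1) fun k _ _ =>
      intervalIntegral.integral_nonneg (hle' k) fun θ _ => hf0 θ
  rw [le_div_iff₀ hη]
  rw [mul_div_assoc', div_le_iff₀ hG'] at hsum
  linarith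

end Vale.Agent.P110.Exist.Fill
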