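import Vale.Agent.P110.Exist.Defs

/-!
Interfaces of the filling step (PROOF.md, section F).

The filled target is `U * (r + g₁ + g₂)`: `g₁` fills the pieces centred at `k/(2H)`, `g₂` the
junctions `[j/(2H), (j+1)/(2H)]`. Both are linear in the sign data `c`, `d`.
-/

namespace Vale.Agent.P110.Exist.Fill

open scoped BigOperators ComplexConjugate
open Finset

/-- Smoothed `√((a² - x²)₊)`. -/
noncomputable def cut (a δ x : ℝ) : ℝ := Real.sqrt (max 0 (a ^ 2 - x ^ 2) + δ ^ 2) - δ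

/-- Equal to `1` for `|u| ≤ 1/4` and to `0` for `|u| ≥ 1/2`. -/
noncomputable def tent (u : ℝ) : ℝ := max 0 (min 1 (2 - 4 * |u|))

/-- First round correction, linear in `c`. -/
noncomputable def g₁ (η : ℝ) (H : ℕ) (r : ℝ → ℝ) (c : ℤ → ℂ) (θ : ℝ) : ℂ :=
  c (round (2 * H * θ)) *
    ((tent (2 * H * θ - round (2 * H * θ)) * cut (1 - η) (η ^ 2) (r θ) : ℝ) : ℂ)

/-- The value after the first round, divided by `U`. -/
noncomputable def zc (η : ℝ) (H : ℕ) (r : ℝ → ℝ) (c : ℤ → ℂ) (θ : ℝ) : ℂ := r θ + g₁ η H r c θ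

/-- Second round correction, linear in `d`. -/
noncomputable def g₂ (η : ℝ) (H : ℕ) (r : ℝ → ℝ) (c : ℤ → ℂ) (d : ℤ → ℝ) (θ : ℝ) : ℂ :=
  (d ⌊2 * H * θ⌋ : ℂ) * Complex.I *
    ((zc η H r c θ + η) / ((‖zc η H r c θ + η‖ : ℝ) : ℂ)) *
      ((cut (1 - 2 * η) (η ^ 2) ‖zc η H r c θ‖ : ℝ) : ℂ)

/-- The properties of the modulus function used by the filling. -/
structure Radial (κ : ℝ) (N H : ℕ) (r : ℝ → ℝ) : Prop where
  periodic : ∀ θ, r (θ + 1) = r θ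
  even : ∀ θ, r (-θ) = r θ
  nonneg : ∀ θ, 0 ≤ r θ
  le : ∀ θ, r θ ≤ 1 + κ
  lip : ∀ θ φ, |r θ - r φ| ≤ κ * N * |θ - φ|
  zero : ∀ θ : ℝ, |θ| ≤ 1 / (4 * H) → r θ = 0 ∧ r (1 / 2 + θ) = 0

/-- Weights allowed in the first round. -/
structure Weight₁ (H : ℕ) (c : ℤ → ℂ) : Prop where
  periodic : ∀ k, c (k + 2 * H) = c k
  symm : ∀ k, c (-k) = conj (c k)
  le : ∀ k, ‖c k‖ ≤ 1

/-- Full sign data of the first round. -/
structure Sign₁ (H : ℕ) (c : ℤ → ℂ) : Prop extends Weight₁ H c where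
  fixed : ∀ k : ℤ, (H : ℤ) ∣ k → c k = 1
  free : ∀ k : ℤ, ¬ (H : ℤ) ∣ k → c k = Complex.I ∨ c k = -Complex.I

/-- Weights allowed in the second round. -/
structure Weight₂ (H : ℕ) (d : ℤ → ℝ) : Prop where
  periodic : ∀ k, d (k + 2 * H) = d k
  symm : ∀ k, d (-1 - k) = -d k
  le : ∀ k, |d k| ≤ 1

/-- A periodic, conjugate symmetric, bounded Lipschitz function, zero where `ρ ≥ a`. -/
structure Nice (L a : ℝ) (ρ : ℝ → ℝ) (g : ℝ → ℂ) : Prop where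
  periodic : ∀ θ, g (θ + 1) = g θ
  symm : ∀ θ, g (-θ) = conj (g θ)
  le : ∀ θ, ‖g θ‖ ≤ 1
  lip : ∀ θ φ, ‖g θ - g φ‖ ≤ L * |θ - φ|
  supp : ∀ θ, a ≤ ρ θ → g θ = 0

/-- Pointwise properties of the two rounds (module `Pieces`). -/
def PiecesGoal : Prop :=
  ∀ (η κ : ℝ) (N H : ℕ) (r : ℝ → ℝ), 0 < η → η ≤ 1 / 10 → 0 ≤ κ → κ ≤ η → 0 < H →
    Radial κ N H r →
    (∀ c, Weight₁ H c → Nice (10 / η ^ 2 * (H + κ * N)) (1 - η) r (g₁ η H r c)) ∧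
    (∀ c d, Sign₁ H c → Weight₂ H d →
      Nice (100 / η ^ 4 * (H + κ * N)) (1 - η) r (g₂ η H r c d)) ∧
    (∀ c d, Sign₁ H c → Weight₂ H d → (∀ k, d k = 1 ∨ d k = -1) →
      ∀ θ, |‖(r θ : ℂ) + g₁ η H r c θ + g₂ η H r c d θ‖ - 1| ≤ 7 * η)

/-- Band limitation by a product of Dirichlet and Jackson kernels (module `Kernel`). -/
def KernelGoal : Prop :=
  ∀ (w : ℕ) (A B : ℤ), 0 < w → A ≤ B →
    ∃ m : ℤ → ℝ, (∀ t, |m t| ≤ 1) ∧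
      ∀ (V : ℝ → ℂ) (a b θ : ℝ) (n : ℤ), Continuous V → (∀ x, V (x + 1) = V x) →
        A + 2 * w ≤ -n → -n ≤ B - 2 * w → 0 ≤ a → 0 ≤ b →
        (∀ s : ℝ, ‖V (θ - s) - V θ * fe (-(n * s))‖ ≤ a * |s| + b * s ^ 2) →
        ‖∑ t ∈ Finset.Icc (A - 2 * (w : ℤ)) (B + 2 * w),
            (m t : ℂ) * (∫ φ in (0 : ℝ)..1, V φ * fe (t * φ)) * fe (-(t * θ)) - V θ‖ ≤
          a / w + b / (w : ℝ) ^ 2

end Vale.Agent.P110.Exist.Fill
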