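import Vale.Agent.P110.Exist.Fill.Defs
import Vale.Agent.P110.Exist.Chirp

/-!
# The band limiting filter of the filling step

The multiplier is the indicator of a band averaged over the fourth power of a Fejer sum, so its
kernel is a Dirichlet kernel times a Jackson kernel.
-/

namespace Vale.Agent.P110.Exist.Fill

open Finset MeasureTheory intervalIntegral
open scoped ComplexConjugate

lemma fe_eq_ee (x : ℝ) : fe x = ee x := rfl

lemma continuous_fe : Continuous fe := by
  unfold fe
  fun_prop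

lemma norm_coef_le (v : ℝ → ℂ) (t : ℤ) :
    ‖∫ x in (0 : ℝ)..1, v x * fe (t * x)‖ ≤ ∫ x in (0 : ℝ)..1, ‖v x‖ := by
  refine (intervalIntegral.norm_integral_le_integral_norm zero_le_one).trans_eq ?_
  simp only [norm_mul, fe_eq_ee, norm_ee, mul_one]

lemma coef_im {v : ℝ → ℂ} (hp : ∀ x, v (x + 1) = v x) (hv : ∀ x, v (-x) = conj (v x)) (t : ℤ) :
    (∫ x in (0 : ℝ)..1, v x * fe (t * x)).im = 0 := by
  have hper : Function.Periodic (fun x => v x * fe (t * x)) 1 := fun x => by
    simp only [hp, fe_eq_ee, mul_add, mul_one, ee_add_int]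
  have h1 : conj (∫ x in (0 : ℝ)..1, v x * fe (t * x)) = ∫ x in (0 : ℝ)..1, v (-x) * fe (t * -x) := by
    rw [← intervalIntegral.intervalIntegral_conj]
    exact intervalIntegral.integral_congr fun x _ => by
      simp only [map_mul, hv, fe_eq_ee, mul_neg, ee_neg]
  rw [intervalIntegral.integral_comp_neg (fun x => v x * fe (t * x))] at h1
  have h2 := hper.intervalIntegral_add_eq (-1) 0
  norm_num at h2
  norm_num [h2] at h1
  exact Complex.conj_eq_iff_im.1 h1

lemma integral_ee_int (n : ℤ) :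
    (∫ x in (-(1 / 2) : ℝ)..1 / 2, ee (n * x)) = if n = 0 then 1 else 0 := by
  split_ifs with hn
  · subst hn; norm_num [ee_zero]
  set c : ℂ := ((2 * Real.pi * n : ℝ) : ℂ) * Complex.I with hc
  have hc0 : c ≠ 0 := by
    simp [hc, hn, Real.pi_ne_zero]
  have he : ∀ x : ℝ, ee (n * x) = Complex.exp (c * x) := fun x => by
    rw [ee, hc]; congr 1; push_cast; ring
  have hper : Function.Periodic (fun x : ℝ => ee (n * x)) 1 := fun x => by
    simp only [mul_add, mul_one, ee_add_int]
  have h := hper.intervalIntegral_add_eq (-(1 / 2)) 0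
  norm_num at h
  norm_num
  rw [h]
  simp only [he]
  rw [integral_exp_mul_complex hc0]
  have := he 1
  rw [mul_one, ee_int] at this
  rw [← this]
  simp

/-- The quadruples averaged over. -/
def quads (w : ℕ) : Finset ((ℕ × ℕ) × (ℕ × ℕ)) :=
  (range w ×ˢ range w) ×ˢ (range w ×ˢ range w)

/-- The frequency of a quadruple. -/
def off (x : (ℕ × ℕ) × (ℕ × ℕ)) : ℤ := (x.1.1 : ℤ) + x.1.2 - x.2.1 - x.2.2

lemma card_quads (w : ℕ) : (quads w).card = w ^ 4 := by
  simp [quads]; ring

lemma off_bounds {w : ℕ} {x : (ℕ × ℕ) × (ℕ × ℕ)} (hx : x ∈ quads w) :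
    -2 * (w : ℤ) ≤ off x ∧ off x ≤ 2 * w := by
  simp only [quads, mem_product, mem_range] at hx
  unfold off
  omega

/-- The multiplier. -/
noncomputable def mult (w : ℕ) (A B t : ℤ) : ℝ :=
  (∑ x ∈ quads w, if A ≤ t - off x ∧ t - off x ≤ B then (1 : ℝ) else 0) / (w : ℝ) ^ 4

lemma mult_mem (w : ℕ) (A B t : ℤ) : 0 ≤ mult w A B t ∧ mult w A B t ≤ 1 := by
  refine ⟨div_nonneg (sum_nonneg fun _ _ => by split_ifs <;> norm_num) (by positivity), ?_⟩
  refine div_le_one_of_le₀ ?_ (by positivity)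
  calc (∑ x ∈ quads w, if A ≤ t - off x ∧ t - off x ≤ B then (1 : ℝ) else 0)
      ≤ ∑ _x ∈ quads w, (1 : ℝ) := sum_le_sum fun _ _ => by split_ifs <;> norm_num
    _ = (w : ℝ) ^ 4 := by simp [card_quads]

lemma mult_eq_one {w : ℕ} (hw : 0 < w) {A B t : ℤ} (h1 : A + 2 * w ≤ t) (h2 : t ≤ B - 2 * w) :
    mult w A B t = 1 := by
  rw [mult, sum_congr rfl fun x hx => if_pos (by have := off_bounds hx; omega)]
  simp [card_quads, hw.ne']

/-- The kernel of the multiplier. -/
noncomputable def kern (w : ℕ) (A B : ℤ) (s : ℝ) : ℂ :=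
  ∑ t ∈ Icc (A - 2 * w) (B + 2 * w), (mult w A B t : ℂ) * ee (t * s)

/-- The Fejer sum. -/
noncomputable def fsumN (w : ℕ) (s : ℝ) : ℂ := ∑ k ∈ range w, ee (k * s)

lemma kern_eq (w : ℕ) (A B : ℤ) (s : ℝ) :
    kern w A B s = (∑ x ∈ quads w, ee (off x * s)) * (∑ u ∈ Icc A B, ee (u * s)) /
      (w : ℂ) ^ 4 := by
  have key : ∀ x ∈ quads w, (∑ t ∈ Icc (A - 2 * w) (B + 2 * w),
      if A ≤ t - off x ∧ t - off x ≤ B then ee (t * s) else 0) =
      ee (off x * s) * ∑ u ∈ Icc A B, ee (u * s) := fun x hx => by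
    rw [← sum_filter, mul_sum]
    have hb := off_bounds hx
    refine sum_nbij' (· - off x) (· + off x) ?_ ?_ ?_ ?_ ?_
    · intro t ht; simp only [mem_filter, mem_Icc] at ht ⊢; omega
    · intro u hu; simp only [mem_filter, mem_Icc] at hu ⊢; omega
    · intro t _; simp
    · intro u _; simp
    · intro t _
      rw [← ee_add, ← add_mul]
      push_cast; ring_nf
  rw [sum_mul, sum_div, kern]
  simp only [mult]
  push_cast
  simp only [sum_div, sum_mul]
  rw [sum_comm]
  refine sum_congr rfl fun x hx => ?_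
  rw [← key x hx, sum_div]
  refine sum_congr rfl fun t _ => ?_
  split_ifs <;> simp; ring

lemma sum_quads_ee (w : ℕ) (s : ℝ) :
    ∑ x ∈ quads w, ee (off x * s) = fsumN w s ^ 2 * conj (fsumN w s) ^ 2 := by
  have h2 : ∀ f g : ℕ → ℂ, (∑ p ∈ range w ×ˢ range w, f p.1 * g p.2) =
      (∑ a ∈ range w, f a) * ∑ b ∈ range w, g b := fun f g => by
    rw [sum_product, sum_mul_sum]
  have e : ∀ x ∈ quads w, ee (off x * s) = (ee (x.1.1 * s) * ee (x.1.2 * s)) *
      (conj (ee (x.2.1 * s)) * conj (ee (x.2.2 * s))) := fun x _ => by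
    simp only [← ee_neg, ← ee_add, off]
    congr 1
    push_cast; ring
  rw [sum_congr rfl e, quads, sum_product]
  dsimp only
  rw [← sum_mul_sum,
    h2 (fun a => ee (a * s)) (fun a => ee (a * s)),
    h2 (fun a => conj (ee (a * s))) (fun a => conj (ee (a * s))), fsumN, map_sum]
  ring

lemma norm_fsumN_mul_le (w : ℕ) {s : ℝ} (hs : |s| ≤ 1 / 2) :
    ‖fsumN w s‖ * (4 * |s|) ≤ 2 := by
  have h : fsumN w s * (ee s - 1) = ee (w * s) - 1 := by
    simp only [fsumN, ee_nat_mul, geom_sum_mul]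
  calc ‖fsumN w s‖ * (4 * |s|) ≤ ‖fsumN w s‖ * ‖ee s - 1‖ :=
        mul_le_mul_of_nonneg_left (le_norm_ee_sub_one hs) (norm_nonneg _)
    _ = ‖ee (w * s) - 1‖ := by rw [← norm_mul, h]
    _ ≤ ‖ee (w * s)‖ + ‖(1 : ℂ)‖ := norm_sub_le _ _
    _ = 2 := by norm_num [norm_ee]

lemma norm_mul_dirichlet_le {A B : ℤ} (hAB : A ≤ B) {s : ℝ} (hs : |s| ≤ 1 / 2) :
    ‖∑ u ∈ Icc A B, ee (u * s)‖ * (4 * |s|) ≤ 2 := by
  have h : ∑ u ∈ Icc A B, ee (u * s) = ee (A * s) * fsumN (B + 1 - A).toNat s := by
    rw [fsumN, mul_sum]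
    refine sum_nbij' (fun u => (u - A).toNat) (fun k : ℕ => A + k) ?_ ?_ ?_ ?_ ?_
    · intro u hu; simp only [mem_range, mem_Icc] at hu ⊢; omega
    · intro k hk; simp only [mem_range, mem_Icc] at hk ⊢; omega
    · intro u hu; simp only [mem_Icc] at hu; omega
    · intro k _; simp
    · intro u hu
      simp only [mem_Icc] at hu
      have e : ((u - A).toNat : ℝ) = (u : ℝ) - A := by
        exact_mod_cast Int.toNat_of_nonneg (show 0 ≤ u - A by omega)
      rw [← ee_add, e]
      ring_nf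
  rw [h, norm_mul, norm_ee, one_mul]
  exact norm_fsumN_mul_le _ hs

lemma norm_kern_mul_le {w : ℕ} {A B : ℤ} (hAB : A ≤ B) {s : ℝ}
    (hs : |s| ≤ 1 / 2) : ‖kern w A B s‖ * |s| ≤ (‖fsumN w s‖ / w) ^ 4 / 2 := by
  rw [kern_eq, sum_quads_ee, norm_div, norm_mul, norm_mul, norm_pow, norm_pow, norm_pow,
    Complex.norm_conj, Complex.norm_natCast]
  have h := norm_mul_dirichlet_le hAB hs
  generalize ‖∑ u ∈ Icc A B, ee (u * s)‖ = D at h ⊢
  calc ‖fsumN w s‖ ^ 2 * ‖fsumN w s‖ ^ 2 * D / (w : ℝ) ^ 4 * |s|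
      = (‖fsumN w s‖ / w) ^ 4 * (D * |s|) := by ring
    _ ≤ (‖fsumN w s‖ / w) ^ 4 * (1 / 2) :=
        mul_le_mul_of_nonneg_left (by linarith) (by positivity)
    _ = _ := by ring

lemma continuous_fsumN (w : ℕ) : Continuous fun s => fsumN w s := by
  unfold fsumN
  exact continuous_finsetSum _ fun k _ => continuous_fe.comp (continuous_const.mul continuous_id)

lemma integral_norm_fsumN_sq (w : ℕ) :
    (∫ s in (-(1 / 2) : ℝ)..1 / 2, ‖fsumN w s‖ ^ 2) = w := by
  have h : ∀ s, ((‖fsumN w s‖ ^ 2 : ℝ) : ℂ) =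
      ∑ a ∈ range w, ∑ b ∈ range w, ee ((((a : ℤ) - b : ℤ) : ℝ) * s) := fun s => by
    push_cast
    rw [← Complex.mul_conj', fsumN, map_sum, sum_mul_sum]
    refine sum_congr rfl fun a _ => sum_congr rfl fun b _ => ?_
    rw [← ee_neg, ← ee_add]
    ring_nf
  refine Complex.ofReal_injective ?_
  have hi : ∀ n : ℤ, IntervalIntegrable (fun s : ℝ => ee (n * s)) volume (-(1 / 2)) (1 / 2) :=
    fun n => (continuous_fe.comp (continuous_const.mul continuous_id)).intervalIntegrable _ _
  rw [← intervalIntegral.integral_ofReal]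
  simp only [h]
  rw [intervalIntegral.integral_finsetSum]
  swap
  · exact fun a _ => (continuous_finsetSum _ fun b _ =>
      continuous_fe.comp (continuous_const.mul continuous_id)).intervalIntegrable _ _
  have e : ∀ a ∈ range w, ∫ s in (-(1 / 2) : ℝ)..1 / 2,
      ∑ b ∈ range w, ee ((((a : ℤ) - b : ℤ) : ℝ) * s) = 1 := fun a ha => by
    rw [intervalIntegral.integral_finsetSum]
    swap
    · exact fun b _ => hi _
    simp only [integral_ee_int, sub_eq_zero, Nat.cast_inj]
    simp only [sum_ite_eq, ha, if_true]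
  rw [sum_congr rfl e]
  simp

lemma integral_norm_fsumN_pow_le (w : ℕ) :
    (∫ s in (-(1 / 2) : ℝ)..1 / 2, ‖fsumN w s‖ ^ 4) ≤ (w : ℝ) ^ 3 := by
  have h : ∀ s, ((‖fsumN w s‖ ^ 4 : ℝ) : ℂ) = ∑ x ∈ quads w, ee (off x * s) := fun s => by
    rw [sum_quads_ee, ← mul_pow, Complex.mul_conj']
    push_cast; ring
  have e : ((∫ s in (-(1 / 2) : ℝ)..1 / 2, ‖fsumN w s‖ ^ 4 : ℝ) : ℂ) =
      (((quads w).filter fun x => off x = 0).card : ℂ) := by
    rw [← intervalIntegral.integral_ofReal]
    simp only [h]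
    rw [intervalIntegral.integral_finsetSum]
    swap
    · exact fun x _ =>
        (continuous_fe.comp (continuous_const.mul continuous_id)).intervalIntegrable _ _
    simp only [integral_ee_int, sum_boole]
  have e' : (∫ s in (-(1 / 2) : ℝ)..1 / 2, ‖fsumN w s‖ ^ 4) =
      (((quads w).filter fun x => off x = 0).card : ℝ) := by exact_mod_cast e
  have hc : ((quads w).filter fun x => off x = 0).card ≤ (range w ×ˢ range w ×ˢ range w).card := by
    refine card_le_card_of_injOn (fun x => (x.1.1, x.1.2, x.2.1)) (fun x hx => ?_) ?_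
    · simp only [mem_filter, quads, mem_product, mem_coe] at hx ⊢
      exact ⟨hx.1.1.1, hx.1.1.2, hx.1.2.1⟩
    · intro x hx y hy hxy
      replace hx := (mem_filter.1 hx).2
      replace hy := (mem_filter.1 hy).2
      simp only [off] at hx hy
      simp only [Prod.ext_iff] at hxy ⊢
      omega
  rw [e']
  calc (((quads w).filter fun x => off x = 0).card : ℝ)
      ≤ ((range w ×ˢ range w ×ˢ range w).card : ℝ) := by exact_mod_cast hc
    _ = (w : ℝ) ^ 3 := by simp; ring

theorem kernelGoal : KernelGoal := by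
  intro w A B hw hAB
  refine ⟨mult w A B, fun t => abs_le.2 ⟨by linarith [mult_mem w A B t], (mult_mem w A B t).2⟩,
    fun V a b θ n hc hp hn1 hn2 ha hb h => ?_⟩
  have hW : (0 : ℝ) < w := by exact_mod_cast hw
  have hce : ∀ c : ℝ, Continuous fun s => ee (c * s) := fun c =>
    continuous_fe.comp (continuous_const.mul continuous_id)
  have hcv : Continuous fun s => V (θ + s) := hc.comp (continuous_const.add continuous_id)
  -- the filtered function is the convolution with the kernel
  have hconv : ∀ t : ℤ, (∫ φ in (0 : ℝ)..1, V φ * fe (t * φ)) * fe (-(t * θ)) =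
      ∫ s in (-(1 / 2) : ℝ)..1 / 2, V (θ + s) * ee (t * s) := fun t => by
    rw [← intervalIntegral.integral_mul_const]
    have hper : Function.Periodic (fun x => V x * fe (t * x) * fe (-(t * θ))) 1 := fun x => by
      simp only [hp, fe_eq_ee, mul_add, mul_one, ee_add_int]
    have h1 := hper.intervalIntegral_add_eq 0 (θ - 1 / 2)
    rw [zero_add] at h1
    rw [h1, show θ - 1 / 2 + 1 = θ + 1 / 2 by ring, show θ - 1 / 2 = θ + -(1 / 2) by ring,
      ← intervalIntegral.integral_comp_add_left]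
    refine intervalIntegral.integral_congr fun s _ => ?_
    simp only [fe_eq_ee, mul_assoc, ← ee_add]
    ring_nf
  have hmain : ∫ s in (-(1 / 2) : ℝ)..1 / 2, V θ * ee (n * s) * kern w A B s = V θ := by
    simp only [kern, mul_sum]
    rw [intervalIntegral.integral_finsetSum]
    swap
    · exact fun t _ =>
        ((continuous_const.mul (hce _)).mul (continuous_const.mul (hce _))).intervalIntegrable _ _
    have : ∀ t : ℤ, ∫ s in (-(1 / 2) : ℝ)..1 / 2, V θ * ee (n * s) * ((mult w A B t : ℂ) *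
        ee (t * s)) = if t = -n then V θ * (mult w A B t : ℂ) else 0 := fun t => by
      have e : ∀ s : ℝ, V θ * ee (n * s) * ((mult w A B t : ℂ) * ee (t * s)) =
          V θ * (mult w A B t : ℂ) * ee (((n + t : ℤ) : ℝ) * s) := fun s => by
        push_cast
        rw [add_mul, ee_add]; ring
      simp only [e, intervalIntegral.integral_const_mul, integral_ee_int]
      by_cases ht : t = -n
      · subst ht; simp
      · rw [if_neg (by omega), if_neg ht, mul_zero]
    simp only [this, sum_ite_eq']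
    rw [if_pos (mem_Icc.2 ⟨by omega, by omega⟩), mult_eq_one hw hn1 hn2]
    simp
  have hck : Continuous fun s => kern w A B s := by
    unfold kern
    exact continuous_finsetSum _ fun t _ => continuous_const.mul (hce _)
  have hall : (∑ t ∈ Icc (A - 2 * w) (B + 2 * w), (mult w A B t : ℂ) * (∫ φ in (0 : ℝ)..1, V φ * fe (t * φ)) * fe (-(t * θ))) -
      V θ = ∫ s in (-(1 / 2) : ℝ)..1 / 2, (V (θ + s) - V θ * ee (n * s)) * kern w A B s := by
    have i1 : IntervalIntegrable (fun s => V (θ + s) * kern w A B s) volume (-(1 / 2)) (1 / 2) :=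
      (hcv.mul hck).intervalIntegrable _ _
    have i2 : IntervalIntegrable (fun s => V θ * ee (n * s) * kern w A B s) volume
        (-(1 / 2)) (1 / 2) :=
      ((continuous_const.mul (hce _)).mul hck).intervalIntegrable _ _
    simp only [sub_mul]
    rw [intervalIntegral.integral_sub i1 i2, hmain]
    congr 1
    simp only [kern, mul_sum, mul_assoc, hconv]
    rw [intervalIntegral.integral_finsetSum]
    swap
    · exact fun t _ => (hcv.mul (continuous_const.mul (hce _))).intervalIntegrable _ _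
    refine sum_congr rfl fun t _ => ?_
    rw [← intervalIntegral.integral_const_mul]
    congr 1
    funext s
    ring
  rw [hall]
  set F : ℝ → ℝ := fun s => ‖fsumN w s‖ with hF
  have hFc : Continuous F := (continuous_fsumN w).norm
  set p : ℝ := (a / 2 + b / (8 * w)) / (w : ℝ) ^ 4
  set q : ℝ := b / (8 * (w : ℝ) ^ 3)
  have hle : (-(1 / 2) : ℝ) ≤ 1 / 2 := by norm_num
  have i4 : IntervalIntegrable (fun s => p * F s ^ 4) volume (-(1 / 2)) (1 / 2) :=
    (continuous_const.mul (hFc.pow 4)).intervalIntegrable _ _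
  have i2 : IntervalIntegrable (fun s => q * F s ^ 2) volume (-(1 / 2)) (1 / 2) :=
    (continuous_const.mul (hFc.pow 2)).intervalIntegrable _ _
  calc ‖∫ s in (-(1 / 2) : ℝ)..1 / 2, (V (θ + s) - V θ * ee (n * s)) * kern w A B s‖
      ≤ ∫ s in (-(1 / 2) : ℝ)..1 / 2, (p * F s ^ 4 + q * F s ^ 2) := by
        refine intervalIntegral.norm_integral_le_of_norm_le hle (ae_of_all _ fun s hs => ?_)
          (i4.add i2)
        have hs' : |s| ≤ 1 / 2 := abs_le.2 ⟨hs.1.le, hs.2⟩
        have e1 : ‖V (θ + s) - V θ * ee (n * s)‖ ≤ a * |s| + b * s ^ 2 := by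
          simpa only [sub_neg_eq_add, mul_neg, neg_neg, abs_neg, neg_sq, fe_eq_ee] using h (-s)
        have hK := norm_kern_mul_le (w := w) hAB hs'
        have hb2 : |s| ≤ 1 / (4 * w) + w * s ^ 2 := by
          rw [div_add' _ _ _ (by positivity), le_div_iff₀ (by positivity), ← sq_abs s]
          nlinarith [sq_nonneg (2 * (w : ℝ) * |s| - 1)]
        have hFs : (F s) ^ 2 * s ^ 2 ≤ 1 / 4 := by
          have h0 := norm_fsumN_mul_le w hs'
          have h1 : F s * |s| ≤ 1 / 2 := by simp only [hF]; linarith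
          have h2 : (F s * |s|) ^ 2 ≤ (1 / 2) ^ 2 := pow_le_pow_left₀ (by positivity) h1 2
          rw [mul_pow, sq_abs] at h2
          linarith
        rw [norm_mul]
        calc ‖V (θ + s) - V θ * ee (n * s)‖ * ‖kern w A B s‖
            ≤ (a * |s| + b * |s| ^ 2) * ‖kern w A B s‖ := by
              rw [sq_abs]; exact mul_le_mul_of_nonneg_right e1 (norm_nonneg _)
          _ = (a + b * |s|) * (‖kern w A B s‖ * |s|) := by ring
          _ ≤ (a + b * |s|) * ((F s / w) ^ 4 / 2) :=
              mul_le_mul_of_nonneg_left hK (by positivity)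
          _ ≤ (a + b * (1 / (4 * w) + w * s ^ 2)) * ((F s / w) ^ 4 / 2) := by gcongr
          _ = p * F s ^ 4 + b / (2 * (w : ℝ) ^ 3) * (F s ^ 2 * (F s ^ 2 * s ^ 2)) := by
              simp only [p]; field_simp; ring
          _ ≤ p * F s ^ 4 + b / (2 * (w : ℝ) ^ 3) * (F s ^ 2 * (1 / 4)) := by gcongr
          _ = _ := by simp only [q]; field_simp; ring
    _ ≤ a / w + b / (w : ℝ) ^ 2 := by
        rw [intervalIntegral.integral_add i4 i2, intervalIntegral.integral_const_mul,
          intervalIntegral.integral_const_mul, integral_norm_fsumN_sq]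
        refine (add_le_add (mul_le_mul_of_nonneg_left (integral_norm_fsumN_pow_le w)
          (by positivity)) le_rfl).trans ?_
        simp only [p, q]
        field_simp
        nlinarith [mul_nonneg ha hW.le]

end Vale.Agent.P110.Exist.Fill
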