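import Vale.Agent.P110.Exist.Fill.Defs

/-!
# Pointwise properties of the two rounds of filling

Pieces are centred at the integers of the scaled variable `x = 2 H θ`; the tent vanishes where the
nearest integer jumps. The second round vanishes on the middle half of every piece, in particular
at the integers, where `⌊x⌋` jumps.
-/

namespace Vale.Agent.P110.Exist.Fill

open scoped BigOperators ComplexConjugate
open Finset

/-! ### The cut-off height -/

lemma cut_nonneg {a δ : ℝ} (hδ : 0 ≤ δ) (x : ℝ) : 0 ≤ cut a δ x := by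
  rw [cut, sub_nonneg]
  calc δ = Real.sqrt (δ ^ 2) := (Real.sqrt_sq hδ).symm
    _ ≤ _ := Real.sqrt_le_sqrt (le_add_of_nonneg_left (le_max_left _ _))

lemma cut_eq_zero {a δ x : ℝ} (ha : 0 ≤ a) (hδ : 0 ≤ δ) (hx : a ≤ x) : cut a δ x = 0 := by
  rw [cut, max_eq_left (by nlinarith), zero_add, Real.sqrt_sq hδ, sub_self]

lemma lt_of_cut_ne_zero {a δ x : ℝ} (ha : 0 ≤ a) (hδ : 0 ≤ δ) (h : cut a δ x ≠ 0) : x < a := by
  by_contra! h'
  exact h (cut_eq_zero ha hδ h')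

lemma cut_sq_le {a δ : ℝ} (hδ : 0 ≤ δ) (x : ℝ) : cut a δ x ^ 2 ≤ max 0 (a ^ 2 - x ^ 2) := by
  have hm := le_max_left 0 (a ^ 2 - x ^ 2)
  set A := max 0 (a ^ 2 - x ^ 2)
  have hs := Real.sq_sqrt (show 0 ≤ A + δ ^ 2 by positivity)
  have hge : δ ≤ Real.sqrt (A + δ ^ 2) := by
    rw [Real.le_sqrt hδ (by positivity)]
    linarith
  show (Real.sqrt (A + δ ^ 2) - δ) ^ 2 ≤ A
  nlinarith [mul_le_mul_of_nonneg_left hge hδ]

lemma cut_sq_ge {a δ : ℝ} (ha : |a| ≤ 1) (hδ : 0 ≤ δ) (x : ℝ) :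
    max 0 (a ^ 2 - x ^ 2) - 2 * δ ≤ cut a δ x ^ 2 := by
  have hm := le_max_left 0 (a ^ 2 - x ^ 2)
  have hA1 : max 0 (a ^ 2 - x ^ 2) ≤ 1 :=
    max_le zero_le_one (by nlinarith [sq_abs a, abs_nonneg a, sq_nonneg x])
  set A := max 0 (a ^ 2 - x ^ 2)
  have hs := Real.sq_sqrt (show 0 ≤ A + δ ^ 2 by positivity)
  have hle : Real.sqrt (A + δ ^ 2) ≤ 1 + δ := by
    rw [Real.sqrt_le_iff]
    exact ⟨by linarith, by nlinarith⟩
  show A - 2 * δ ≤ (Real.sqrt (A + δ ^ 2) - δ) ^ 2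
  nlinarith [mul_le_mul_of_nonneg_left hle hδ]

lemma cut_le_one {a δ : ℝ} (ha : |a| ≤ 1) (hδ : 0 ≤ δ) (x : ℝ) : cut a δ x ≤ 1 := by
  have h1 := cut_sq_le (a := a) hδ x
  have h2 : max 0 (a ^ 2 - x ^ 2) ≤ 1 :=
    max_le zero_le_one (by nlinarith [sq_abs a, abs_nonneg a, sq_nonneg x])
  nlinarith [cut_nonneg (a := a) hδ x]

lemma abs_cut_le_one {a δ : ℝ} (ha : |a| ≤ 1) (hδ : 0 ≤ δ) (x : ℝ) : |cut a δ x| ≤ 1 := by
  rw [abs_of_nonneg (cut_nonneg hδ x)]
  exact cut_le_one ha hδ x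

lemma cut_lipschitz {a δ : ℝ} (ha : 0 ≤ a) (ha1 : a ≤ 1) (hδ : 0 < δ) (s t : ℝ) :
    |cut a δ s - cut a δ t| ≤ |s - t| / δ := by
  set A : ℝ → ℝ := fun x => max 0 (a ^ 2 - x ^ 2) + δ ^ 2
  have hA : ∀ x, A x = a ^ 2 - min |x| a ^ 2 + δ ^ 2 := fun x => by
    rcases le_total |x| a with h | h
    · simp only [A, min_eq_left h, sq_abs]
      rw [max_eq_right]
      nlinarith [sq_abs x, abs_nonneg x]
    · simp only [A, min_eq_right h, sub_self]
      rw [max_eq_left]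
      nlinarith [sq_abs x, abs_nonneg x]
  have hd : |A s - A t| ≤ 2 * |s - t| := by
    have hb : ∀ x : ℝ, 0 ≤ min |x| a ∧ min |x| a ≤ 1 := fun x =>
      ⟨le_min (abs_nonneg x) ha, (min_le_right _ _).trans ha1⟩
    have hm : |min |t| a - min |s| a| ≤ |s - t| := by
      refine (abs_min_sub_min_le_max _ _ _ _).trans ?_
      rw [sub_self, abs_zero, max_eq_left (abs_nonneg _), abs_sub_comm s t]
      exact abs_abs_sub_abs_le_abs_sub t s
    rw [hA, hA, show a ^ 2 - min |s| a ^ 2 + δ ^ 2 - (a ^ 2 - min |t| a ^ 2 + δ ^ 2) =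
      (min |t| a + min |s| a) * (min |t| a - min |s| a) by ring, abs_mul]
    gcongr
    rw [abs_of_nonneg (add_nonneg (hb t).1 (hb s).1)]
    linarith [(hb t).2, (hb s).2]
  have hpos : ∀ x, δ ≤ Real.sqrt (A x) := fun x => by
    rw [Real.le_sqrt hδ.le (by positivity)]
    simp only [A]
    nlinarith [le_max_left 0 (a ^ 2 - x ^ 2)]
  have e : (cut a δ s - cut a δ t) * (Real.sqrt (A s) + Real.sqrt (A t)) = A s - A t := by
    have hs := Real.sq_sqrt (show 0 ≤ A s by positivity)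
    have ht := Real.sq_sqrt (show 0 ≤ A t by positivity)
    show (Real.sqrt (A s) - δ - (Real.sqrt (A t) - δ)) * _ = _
    linear_combination hs - ht
  rw [le_div_iff₀ hδ]
  have h2 : |cut a δ s - cut a δ t| * (2 * δ) ≤ 2 * |s - t| := by
    refine le_trans ?_ hd
    rw [← e, abs_mul]
    gcongr
    rw [abs_of_nonneg (by positivity)]
    linarith [hpos s, hpos t]
  linarith

/-! ### The tent on the nearest integer -/

lemma tent_nonneg (u : ℝ) : 0 ≤ tent u := le_max_left _ _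

lemma tent_le_one (u : ℝ) : tent u ≤ 1 := max_le zero_le_one (min_le_left _ _)

lemma tent_eq_one {u : ℝ} (h : |u| ≤ 1 / 4) : tent u = 1 := by
  rw [tent, min_eq_left (by linarith), max_eq_right zero_le_one]

lemma tent_eq_zero {u : ℝ} (h : 1 / 2 ≤ |u|) : tent u = 0 := by
  rw [tent, min_eq_right (by linarith), max_eq_left (by linarith)]

lemma abs_tent_sub_le (x y : ℝ) : |tent x - tent y| ≤ 4 * |x - y| := by
  refine (abs_max_sub_max_le_max _ _ _ _).trans ?_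
  rw [sub_self, abs_zero, max_eq_right (abs_nonneg _)]
  refine (abs_min_sub_min_le_max _ _ _ _).trans ?_
  rw [sub_self, abs_zero, max_eq_right (abs_nonneg _),
    show 2 - 4 * |x| - (2 - 4 * |y|) = 4 * (|y| - |x|) by ring, abs_mul, abs_sub_comm x y]
  rw [abs_of_pos (show (0 : ℝ) < 4 by norm_num)]
  exact mul_le_mul_of_nonneg_left (abs_abs_sub_abs_le_abs_sub y x) (by norm_num)

lemma round_eq_of_abs_lt {x : ℝ} {n : ℤ} (h : |x - n| < 1 / 2) : round x = n := by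
  rw [round_eq, Int.floor_eq_iff]
  rw [abs_lt] at h
  constructor <;> linarith

lemma round_mono' {x y : ℝ} (h : x ≤ y) : round x ≤ round y := by
  rw [round_eq, round_eq]
  exact Int.floor_le_floor (by linarith)

lemma tentRound_neg {c : ℤ → ℂ} (hc : ∀ k, c (-k) = conj (c k)) (x : ℝ) :
    c (round (-x)) * (tent (-x - round (-x)) : ℂ) = conj (c (round x) * (tent (x - round x) : ℂ)) := by
  by_cases h : |x - round x| < 1 / 2
  · have e : round (-x) = -round x := round_eq_of_abs_lt (by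
      rwa [Int.cast_neg, show -x - -(round x : ℝ) = -(x - round x) by ring, abs_neg])
    rw [e, hc, map_mul, Complex.conj_ofReal, Int.cast_neg]
    simp only [tent]
    rw [show -x - -(round x : ℝ) = -(x - round x) by ring, abs_neg]
  · have h' : |x - round x| = 1 / 2 := le_antisymm (abs_sub_round x) (not_lt.1 h)
    have h2 : 1 / 2 ≤ |-x - round (-x)| := by
      have h3 := round_le x (-round (-x))
      rw [Int.cast_neg, show x - -(round (-x) : ℝ) = -(-x - round (-x)) by ring, abs_neg, h'] at h3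
      exact h3
    rw [tent_eq_zero h'.ge, tent_eq_zero h2]
    simp

lemma tentRound_sub_le {c : ℤ → ℂ} (hc : ∀ k, ‖c k‖ ≤ 1) (x y : ℝ) :
    ‖c (round x) * (tent (x - round x) : ℂ) - c (round y) * (tent (y - round y) : ℂ)‖ ≤
      4 * |x - y| := by
  wlog hxy : x ≤ y generalizing x y
  · rw [norm_sub_rev, abs_sub_comm]
    exact this y x (le_of_not_ge hxy)
  by_cases h : round x = round y
  · rw [h, ← mul_sub, norm_mul, ← Complex.ofReal_sub, Complex.norm_real, Real.norm_eq_abs]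
    refine (mul_le_of_le_one_left (abs_nonneg _) (hc _)).trans ((abs_tent_sub_le _ _).trans_eq ?_)
    rw [sub_sub_sub_cancel_right]
  have hn : (round x : ℝ) + 1 ≤ round y := by
    exact_mod_cast lt_of_le_of_ne (round_mono' hxy) h
  refine (norm_sub_le _ _).trans ?_
  have hb : ∀ w, ‖c (round w) * (tent (w - round w) : ℂ)‖ ≤ tent (w - round w) := fun w => by
    rw [norm_mul, Complex.norm_real, Real.norm_eq_abs, abs_of_nonneg (tent_nonneg _)]
    exact mul_le_of_le_one_left (tent_nonneg _) (hc _)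
  have hx : tent (x - round x) ≤ 4 * (round x + 1 / 2 - x) := by
    have h1 := abs_tent_sub_le (x - round x) (1 / 2)
    rw [tent_eq_zero (le_abs_self _), sub_zero, abs_of_nonneg (tent_nonneg _)] at h1
    have h2 := abs_sub_round x
    rw [abs_le] at h2
    rw [abs_of_nonpos (by linarith)] at h1
    linarith
  have hy : tent (y - round y) ≤ 4 * (y - (round y - 1 / 2)) := by
    have h1 := abs_tent_sub_le (y - round y) (-(1 / 2))
    rw [show tent (-(1 / 2)) = 0 from tent_eq_zero (by norm_num), sub_zero,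
      abs_of_nonneg (tent_nonneg _)] at h1
    have h2 := abs_sub_round y
    rw [abs_le] at h2
    rw [abs_of_nonneg (by linarith)] at h1
    linarith
  rw [abs_of_nonpos (by linarith)]
  linarith [hb x, hb y]

/-! ### The first round -/

/-- The estimate behind the second round. -/
lemma second_bound {η s a C B : ℝ} (hη : 0 < η) (hη' : η ≤ 1 / 10) (hs : 0 ≤ s)
    (hs1 : s ≤ 1 - 2 * η) (ha : 0 ≤ a) (hlo : -η ≤ a - s) (hhi : a - s ≤ η)
    (hC1 : C ≤ (1 - 2 * η) ^ 2 - s ^ 2) (hC2 : (1 - 2 * η) ^ 2 - s ^ 2 - 2 * η ^ 2 ≤ C)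
    (hB : 0 ≤ B) (he : B ^ 2 = a ^ 2 + C) : 1 - 6 * η ≤ B ∧ B ≤ 1 - η := by
  have h1 : s ^ 2 - 2 * η * s ≤ a ^ 2 := by
    rcases le_total s η with h | h <;> nlinarith
  have h2 : a ^ 2 ≤ s ^ 2 + 2 * η * s + η ^ 2 := by nlinarith
  refine ⟨?_, ?_⟩
  · by_contra! hcon
    have : B ^ 2 < (1 - 6 * η) ^ 2 := by nlinarith
    nlinarith
  · have : B ^ 2 ≤ (1 - η) ^ 2 := by nlinarith
    nlinarith

lemma norm_sq_re_im (a b : ℝ) : ‖(a : ℂ) + Complex.I * (b : ℂ)‖ ^ 2 = a ^ 2 + b ^ 2 := by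
  rw [Complex.sq_norm, mul_comm, Complex.normSq_add_mul_I]

section
variable {η κ : ℝ} {N H : ℕ} {r : ℝ → ℝ} (hη : 0 < η) (hη' : η ≤ 1 / 10) (hH : 0 < H)
  (hr : Radial κ N H r)
include hr

lemma rate_nonneg : 0 ≤ κ * N := le_trans (abs_nonneg _) (by simpa using hr.lip 1 0)

include hη hη'

lemma nice_g₁ {c : ℤ → ℂ} (hc : Weight₁ H c) :
    Nice (10 / η ^ 2 * (H + κ * N)) (1 - η) r (g₁ η H r c) where
  periodic θ := by
    have e : 2 * (H : ℝ) * (θ + 1) = 2 * H * θ + ((2 * H : ℤ) : ℝ) := by push_cast; ring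
    rw [g₁, g₁, e, round_add_intCast, hc.periodic, hr.periodic, Int.cast_add,
      add_sub_add_right_eq_sub]
  symm θ := by
    have h1 := tentRound_neg hc.symm (2 * H * θ)
    simp only [g₁, hr.even, show 2 * (H : ℝ) * -θ = -(2 * H * θ) by ring, Complex.ofReal_mul,
      map_mul, Complex.conj_ofReal] at h1 ⊢
    rw [← mul_assoc, h1, mul_assoc]
  le θ := by
    rw [g₁, norm_mul, Complex.norm_real, Real.norm_eq_abs, abs_mul,
      abs_of_nonneg (tent_nonneg _)]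
    exact mul_le_one₀ (hc.le _) (by positivity [tent_nonneg (2 * H * θ - round (2 * H * θ))])
      (mul_le_one₀ (tent_le_one _) (abs_nonneg _)
        (abs_cut_le_one (by rw [abs_of_nonneg (by linarith)]; linarith) (sq_nonneg η) _))
  lip θ φ := by
    have hN := rate_nonneg hr
    set x := 2 * (H : ℝ) * θ with hx
    set y := 2 * (H : ℝ) * φ with hy
    have hcut : ∀ t, |cut (1 - η) (η ^ 2) t| ≤ 1 :=
      abs_cut_le_one (by rw [abs_of_nonneg (by linarith)]; linarith) (sq_nonneg η)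
    have e : g₁ η H r c θ - g₁ η H r c φ =
        (c (round x) * (tent (x - round x) : ℂ) - c (round y) * (tent (y - round y) : ℂ)) *
            (cut (1 - η) (η ^ 2) (r θ) : ℂ) +
          c (round y) * (tent (y - round y) : ℂ) *
            ((cut (1 - η) (η ^ 2) (r θ) - cut (1 - η) (η ^ 2) (r φ) : ℝ) : ℂ) := by
      simp only [g₁, ← hx, ← hy]
      push_cast
      ring
    rw [e]
    refine (norm_add_le _ _).trans ?_
    simp only [norm_mul, Complex.norm_real, Real.norm_eq_abs]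
    have h1 : |cut (1 - η) (η ^ 2) (r θ) - cut (1 - η) (η ^ 2) (r φ)| ≤
        κ * N / η ^ 2 * |θ - φ| := by
      refine (cut_lipschitz (by linarith) (by linarith) (by positivity) _ _).trans ?_
      rw [div_mul_eq_mul_div]
      exact div_le_div_of_nonneg_right (hr.lip θ φ) (sq_nonneg η)
    have h2 : ‖c (round x) * (tent (x - round x) : ℂ) - c (round y) * (tent (y - round y) : ℂ)‖ ≤
        8 * H * |θ - φ| := by
      refine (tentRound_sub_le hc.le x y).trans_eq ?_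
      rw [hx, hy, ← mul_sub, abs_mul, abs_of_nonneg (by positivity : (0 : ℝ) ≤ 2 * H)]
      ring
    have h3 : ‖c (round y)‖ * |tent (y - round y)| ≤ 1 :=
      mul_le_one₀ (hc.le _) (abs_nonneg _)
        (by rw [abs_of_nonneg (tent_nonneg _)]; exact tent_le_one _)
    refine (add_le_add ((mul_le_of_le_one_right (norm_nonneg _) (hcut _)).trans h2)
      ((mul_le_of_le_one_left (abs_nonneg _) h3).trans h1)).trans ?_
    rw [← add_mul]
    refine mul_le_mul_of_nonneg_right ?_ (abs_nonneg _)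
    rw [div_mul_eq_mul_div, le_div_iff₀ (by positivity), add_mul, div_mul_cancel₀ _ (by positivity)]
    nlinarith [mul_le_of_le_one_right (show (0 : ℝ) ≤ 8 * H by positivity)
      (pow_le_one₀ hη.le (show η ≤ 1 by linarith) : η ^ 2 ≤ 1), (Nat.cast_nonneg H : (0 : ℝ) ≤ H)]
  supp θ hθ := by
    rw [g₁, cut_eq_zero (by linarith) (sq_nonneg η) hθ, mul_zero, Complex.ofReal_zero, mul_zero]

omit hη hη'

include hH

lemma r_eq_zero_of_fixed (θ : ℝ) (h : (H : ℤ) ∣ round (2 * (H : ℝ) * θ)) : r θ = 0 := by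
  have hH' : (0 : ℝ) < H := by exact_mod_cast hH
  obtain ⟨q, hq⟩ := h
  have hx := abs_sub_round (2 * (H : ℝ) * θ)
  rw [hq] at hx
  push_cast at hx
  have hθ : |θ - q / 2| ≤ 1 / (4 * H) := by
    rw [le_div_iff₀ (by positivity),
      show |θ - q / 2| * (4 * H) = 2 * |2 * (H : ℝ) * θ - H * q| by
        rw [show 2 * (H : ℝ) * θ - H * q = 2 * H * (θ - q / 2) by ring, abs_mul,
          abs_of_pos (by positivity : (0 : ℝ) < 2 * H)]
        ring]
    linarith
  have hper : Function.Periodic r 1 := hr.periodic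
  obtain ⟨p, rfl⟩ | ⟨p, rfl⟩ := Int.even_or_odd q
  · have h0 := (hr.zero _ hθ).1
    rwa [show θ - ((p + p : ℤ) : ℝ) / 2 = θ - p * 1 by push_cast; ring,
      hper.sub_int_mul_eq] at h0
  · have h0 := (hr.zero _ hθ).2
    rwa [show 1 / 2 + (θ - ((2 * p + 1 : ℤ) : ℝ) / 2) = θ - p * 1 by push_cast; ring,
      hper.sub_int_mul_eq] at h0

include hη hη'

lemma zc_bounds {c : ℤ → ℂ} (hc : Sign₁ H c) (hκ : 0 ≤ κ) (θ : ℝ) :
    0 ≤ (zc η H r c θ).re ∧ ‖zc η H r c θ‖ ≤ 1 + κ ∧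
      (|2 * (H : ℝ) * θ - round (2 * (H : ℝ) * θ)| ≤ 1 / 4 → 1 - 2 * η ≤ ‖zc η H r c θ‖) := by
  set u := 2 * (H : ℝ) * θ - round (2 * (H : ℝ) * θ) with hu
  have ha : |1 - η| ≤ 1 := by rw [abs_of_nonneg (by linarith)]; linarith
  have hup := cut_sq_le (a := 1 - η) (sq_nonneg η) (r θ)
  have hlo := cut_sq_ge ha (sq_nonneg η) (r θ)
  have hc0 := cut_nonneg (a := 1 - η) (sq_nonneg η) (r θ)
  have hr0 := hr.nonneg θ
  have ht0 := tent_nonneg u
  have ht1 := tent_le_one u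
  by_cases hd : (H : ℤ) ∣ round (2 * (H : ℝ) * θ)
  · have hz := r_eq_zero_of_fixed hH hr θ hd
    have e : zc η H r c θ = ((tent u * cut (1 - η) (η ^ 2) (r θ) : ℝ) : ℂ) := by
      rw [zc, g₁, hc.fixed _ hd, one_mul, hz, Complex.ofReal_zero, zero_add]
    have hle := cut_le_one ha (sq_nonneg η) (r θ)
    rw [e, Complex.norm_real, Real.norm_eq_abs, abs_of_nonneg (mul_nonneg ht0 hc0),
      Complex.ofReal_re]
    refine ⟨mul_nonneg ht0 hc0, (mul_le_one₀ ht1 hc0 hle).trans (by linarith), fun hm => ?_⟩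
    rw [tent_eq_one hm, one_mul]
    rw [hz] at hlo ⊢
    rw [hz] at hc0
    rw [max_eq_right (by nlinarith)] at hlo
    nlinarith
  · obtain ⟨b, hb, e⟩ : ∃ b : ℝ, b ^ 2 = tent u ^ 2 * cut (1 - η) (η ^ 2) (r θ) ^ 2 ∧
        zc η H r c θ = (r θ : ℂ) + Complex.I * (b : ℂ) := by
      rcases hc.free _ hd with h | h
      · exact ⟨tent u * cut (1 - η) (η ^ 2) (r θ), by ring, by rw [zc, g₁, h]⟩
      · refine ⟨-(tent u * cut (1 - η) (η ^ 2) (r θ)), by ring, ?_⟩
        rw [zc, g₁, h, ← hu, Complex.ofReal_neg]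
        ring
    have hA : ‖zc η H r c θ‖ ^ 2 = r θ ^ 2 + b ^ 2 := by rw [e, norm_sq_re_im]
    have hn := norm_nonneg (zc η H r c θ)
    refine ⟨by rw [e]; simpa using hr0, ?_, fun hm => ?_⟩
    · have : b ^ 2 ≤ max 0 ((1 - η) ^ 2 - r θ ^ 2) :=
        hb ▸ (mul_le_of_le_one_left (sq_nonneg _) (pow_le_one₀ ht0 ht1)).trans hup
      rcases max_choice 0 ((1 - η) ^ 2 - r θ ^ 2) with h | h <;> rw [h] at this <;>
        nlinarith [hr.le θ]
    · rw [tent_eq_one hm, one_pow, one_mul] at hb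
      nlinarith [le_max_left 0 ((1 - η) ^ 2 - r θ ^ 2), le_max_right 0 ((1 - η) ^ 2 - r θ ^ 2)]

omit hH hη hη'

/-- The second round without its sign. -/
noncomputable def junction (η : ℝ) (H : ℕ) (r : ℝ → ℝ) (c : ℤ → ℂ) (θ : ℝ) : ℂ :=
  Complex.I * ((zc η H r c θ + η) / ((‖zc η H r c θ + η‖ : ℝ) : ℂ)) *
    ((cut (1 - 2 * η) (η ^ 2) ‖zc η H r c θ‖ : ℝ) : ℂ)

omit hr in
lemma g₂_eq (c : ℤ → ℂ) (d : ℤ → ℝ) (θ : ℝ) :
    g₂ η H r c d θ = (d ⌊2 * (H : ℝ) * θ⌋ : ℂ) * junction η H r c θ := by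
  rw [g₂, junction]
  ring

omit hr in
lemma norm_unit {η : ℝ} (hη : 0 < η) {z : ℂ} (hz : 0 ≤ z.re) :
    ‖(z + η) / ((‖z + η‖ : ℝ) : ℂ)‖ = 1 := by
  have h : η ≤ ‖z + η‖ := le_trans (by simpa using hz) (Complex.re_le_norm _)
  rw [norm_div, Complex.norm_real, norm_norm, div_self (by linarith)]

omit hr in
lemma norm_unit_sub_le {η : ℝ} (hη : 0 < η) {z w : ℂ} (hz : 0 ≤ z.re) (hw : 0 ≤ w.re) :
    ‖(z + η) / ((‖z + η‖ : ℝ) : ℂ) - (w + η) / ((‖w + η‖ : ℝ) : ℂ)‖ ≤ 2 / η * ‖z - w‖ := by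
  rw [show z - w = (z + η) - (w + η) by ring]
  have ha : η ≤ ‖z + η‖ := le_trans (by simpa using hz) (Complex.re_le_norm _)
  have hb : η ≤ ‖w + η‖ := le_trans (by simpa using hw) (Complex.re_le_norm _)
  generalize z + (η : ℂ) = a at ha ⊢
  generalize w + (η : ℂ) = b at hb ⊢
  have ha0 : (‖a‖ : ℂ) ≠ 0 := by exact_mod_cast (show ‖a‖ ≠ 0 by linarith)
  have hb0 : (‖b‖ : ℂ) ≠ 0 := by exact_mod_cast (show ‖b‖ ≠ 0 by linarith)
  have e : a / (‖a‖ : ℂ) - b / (‖b‖ : ℂ) =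
      (a - b) / (‖a‖ : ℂ) + b / (‖b‖ : ℂ) * (((‖b‖ : ℂ) - ‖a‖) / ‖a‖) := by
    field_simp
    ring
  rw [e]
  refine (norm_add_le _ _).trans ?_
  rw [norm_mul, norm_div, norm_div, norm_div, ← Complex.ofReal_sub, Complex.norm_real,
    Complex.norm_real, Complex.norm_real, norm_norm, norm_norm, div_self (by linarith), one_mul,
    Real.norm_eq_abs, abs_sub_comm, ← add_div, div_mul_eq_mul_div,
    div_le_div_iff₀ (by linarith) hη]
  nlinarith [abs_norm_sub_norm_le a b, norm_nonneg (a - b)]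

include hη hη' hH

lemma norm_junction_le {c : ℤ → ℂ} (hc : Sign₁ H c) (hκ : 0 ≤ κ) (θ : ℝ) :
    ‖junction η H r c θ‖ ≤ 1 := by
  rw [junction, norm_mul, norm_mul, Complex.norm_I,
    norm_unit hη (zc_bounds hη hη' hH hr hc hκ θ).1, one_mul, one_mul, Complex.norm_real]
  exact abs_cut_le_one (by rw [abs_of_nonneg (by linarith)]; linarith) (sq_nonneg η) _

lemma junction_sub_le {c : ℤ → ℂ} (hc : Sign₁ H c) (hκ : 0 ≤ κ) (θ φ : ℝ) :
    ‖junction η H r c θ - junction η H r c φ‖ ≤ 100 / η ^ 4 * (H + κ * N) * |θ - φ| := by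
  have hN := rate_nonneg hr
  have hb : ∀ x, 0 ≤ (zc η H r c x).re := fun x => (zc_bounds hη hη' hH hr hc hκ x).1
  set M := ((H : ℝ) + κ * N) * |θ - φ| with hM
  have hM0 : 0 ≤ M := by positivity
  have hz : ‖zc η H r c θ - zc η H r c φ‖ ≤ 11 / η ^ 2 * M := by
    rw [zc, zc, add_sub_add_comm, ← Complex.ofReal_sub]
    refine (norm_add_le _ _).trans ?_
    rw [Complex.norm_real, Real.norm_eq_abs]
    refine (add_le_add (hr.lip θ φ) ((nice_g₁ hη hη' hr hc.toWeight₁).lip θ φ)).trans ?_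
    have h1 : κ * N * |θ - φ| ≤ 1 / η ^ 2 * M := by
      refine le_trans ?_ (le_mul_of_one_le_left hM0 (one_le_div (by positivity) |>.2
        (pow_le_one₀ hη.le (by linarith))))
      exact mul_le_mul_of_nonneg_right (le_add_of_nonneg_left (Nat.cast_nonneg H)) (abs_nonneg _)
    rw [mul_assoc (10 / η ^ 2)]
    linarith [show 11 / η ^ 2 * M = 1 / η ^ 2 * M + 10 / η ^ 2 * M by ring]
  set z := zc η H r c θ
  set w := zc η H r c φ
  have e : junction η H r c θ - junction η H r c φ =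
      Complex.I * (((z + η) / ((‖z + η‖ : ℝ) : ℂ) - (w + η) / ((‖w + η‖ : ℝ) : ℂ)) *
        ((cut (1 - 2 * η) (η ^ 2) ‖z‖ : ℝ) : ℂ) +
        (w + η) / ((‖w + η‖ : ℝ) : ℂ) *
          ((cut (1 - 2 * η) (η ^ 2) ‖z‖ - cut (1 - 2 * η) (η ^ 2) ‖w‖ : ℝ) : ℂ)) := by
    simp only [junction, z, w]
    push_cast
    ring
  rw [e, norm_mul, Complex.norm_I, one_mul]
  refine (norm_add_le _ _).trans ?_
  rw [norm_mul, norm_mul, norm_unit hη (hb φ), one_mul, Complex.norm_real, Complex.norm_real,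
    Real.norm_eq_abs, Real.norm_eq_abs]
  have h1 : |cut (1 - 2 * η) (η ^ 2) ‖z‖ - cut (1 - 2 * η) (η ^ 2) ‖w‖| ≤ ‖z - w‖ / η ^ 2 :=
    (cut_lipschitz (by linarith) (by linarith) (by positivity) _ _).trans
      (div_le_div_of_nonneg_right (abs_norm_sub_norm_le _ _) (sq_nonneg η))
  refine (add_le_add ((mul_le_of_le_one_right (norm_nonneg _) (abs_cut_le_one
    (by rw [abs_of_nonneg (by linarith)]; linarith) (sq_nonneg η) _)).trans
      (norm_unit_sub_le hη (hb θ) (hb φ))) h1).trans ?_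
  calc 2 / η * ‖z - w‖ + ‖z - w‖ / η ^ 2 ≤ 3 / η ^ 2 * ‖z - w‖ := by
        have : 2 / η ≤ 2 / η ^ 2 :=
          div_le_div_of_nonneg_left (by norm_num) (by positivity) (by nlinarith)
        linarith [mul_le_mul_of_nonneg_right this (norm_nonneg (z - w)),
          show 3 / η ^ 2 * ‖z - w‖ = 2 / η ^ 2 * ‖z - w‖ + ‖z - w‖ / η ^ 2 by ring]
    _ ≤ 3 / η ^ 2 * (11 / η ^ 2 * M) := mul_le_mul_of_nonneg_left hz (by positivity)
    _ ≤ 100 / η ^ 4 * M := by
        rw [← mul_assoc, div_mul_div_comm, ← pow_add]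
        gcongr
        norm_num
    _ = _ := by rw [hM, mul_assoc]

lemma junction_eq_zero {c : ℤ → ℂ} (hc : Sign₁ H c) (hκ : 0 ≤ κ) (θ : ℝ)
    (h : |2 * (H : ℝ) * θ - round (2 * (H : ℝ) * θ)| ≤ 1 / 4) : junction η H r c θ = 0 := by
  rw [junction, cut_eq_zero (by linarith) (sq_nonneg η)
    ((zc_bounds hη hη' hH hr hc hκ θ).2.2 h), Complex.ofReal_zero, mul_zero]

lemma nice_g₂ {c : ℤ → ℂ} {d : ℤ → ℝ} (hc : Sign₁ H c) (hd : Weight₂ H d) (hκ : 0 ≤ κ) :
    Nice (100 / η ^ 4 * (H + κ * N)) (1 - η) r (g₂ η H r c d) where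
  periodic θ := by
    have e : 2 * (H : ℝ) * (θ + 1) = 2 * H * θ + ((2 * H : ℤ) : ℝ) := by push_cast; ring
    simp only [g₂, zc, e, Int.floor_add_intCast, hd.periodic, hr.periodic,
      (nice_g₁ hη hη' hr hc.toWeight₁).periodic]
  symm θ := by
    have ez : zc η H r c (-θ) = conj (zc η H r c θ) := by
      simp only [zc, hr.even, (nice_g₁ hη hη' hr hc.toWeight₁).symm, map_add, Complex.conj_ofReal]
    have ej : junction η H r c (-θ) = -conj (junction η H r c θ) := by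
      have e2 : conj (zc η H r c θ) + η = conj (zc η H r c θ + η) := by
        rw [map_add, Complex.conj_ofReal]
      simp only [junction, ez, e2, Complex.norm_conj, map_mul, map_div₀, Complex.conj_ofReal,
        Complex.conj_I]
      ring
    rw [g₂_eq, g₂_eq, ej, map_mul, Complex.conj_ofReal]
    by_cases hint : ((⌊2 * (H : ℝ) * θ⌋ : ℤ) : ℝ) = 2 * H * θ
    · rw [junction_eq_zero hη hη' hH hr hc hκ θ (by rw [← hint, round_intCast]; norm_num)]
      simp
    · have e : ⌊2 * (H : ℝ) * -θ⌋ = -1 - ⌊2 * (H : ℝ) * θ⌋ := by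
        rw [Int.floor_eq_iff]
        have h1 := Int.floor_le (2 * (H : ℝ) * θ)
        have h2 := Int.lt_floor_add_one (2 * (H : ℝ) * θ)
        push_cast
        constructor
        · linarith
        · linarith [lt_of_le_of_ne h1 hint]
      rw [e, hd.symm, Complex.ofReal_neg]
      ring
  le θ := by
    rw [g₂_eq, norm_mul, Complex.norm_real]
    exact mul_le_one₀ (hd.le _) (norm_nonneg _) (norm_junction_le hη hη' hH hr hc hκ θ)
  lip θ φ := by
    wlog hle : θ ≤ φ generalizing θ φ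
    · rw [norm_sub_rev, abs_sub_comm]
      exact this φ θ (le_of_not_ge hle)
    have hL : (0 : ℝ) ≤ 100 / η ^ 4 * (H + κ * N) := by
      have := rate_nonneg hr
      positivity
    have hH' : (0 : ℝ) < 2 * H := by positivity
    rw [g₂_eq, g₂_eq]
    by_cases hf : ⌊2 * (H : ℝ) * θ⌋ = ⌊2 * (H : ℝ) * φ⌋
    · rw [hf, ← mul_sub, norm_mul, Complex.norm_real]
      exact (mul_le_of_le_one_left (norm_nonneg _) (hd.le _)).trans
        (junction_sub_le hη hη' hH hr hc hκ θ φ)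
    set m := ⌊2 * (H : ℝ) * φ⌋ with hm
    set t := (m : ℝ) / (2 * H) with ht
    have ht' : 2 * (H : ℝ) * t = m := by rw [ht]; field_simp
    have h0 : junction η H r c t = 0 :=
      junction_eq_zero hη hη' hH hr hc hκ t (by rw [ht', round_intCast]; norm_num)
    have htφ : t ≤ φ := by
      rw [ht, div_le_iff₀ hH']
      linarith [Int.floor_le (2 * (H : ℝ) * φ)]
    have hθt : θ ≤ t := by
      have hlt : ⌊2 * (H : ℝ) * θ⌋ < m :=
        lt_of_le_of_ne (Int.floor_le_floor (by gcongr)) hf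
      rw [Int.floor_lt] at hlt
      rw [ht, le_div_iff₀ hH']
      linarith
    have h1 := junction_sub_le hη hη' hH hr hc hκ θ t
    have h2 := junction_sub_le hη hη' hH hr hc hκ φ t
    rw [h0, sub_zero, abs_of_nonpos (by linarith)] at h1
    rw [h0, sub_zero, abs_of_nonneg (by linarith)] at h2
    refine (norm_sub_le _ _).trans ?_
    rw [norm_mul, norm_mul, Complex.norm_real, Complex.norm_real, abs_of_nonpos (by linarith)]
    refine (add_le_add ((mul_le_of_le_one_left (norm_nonneg _) (hd.le _)).trans h1)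
      ((mul_le_of_le_one_left (norm_nonneg _) (hd.le _)).trans h2)).trans_eq ?_
    ring
  supp θ hθ := by
    rw [g₂, zc, (nice_g₁ hη hη' hr hc.toWeight₁).supp θ hθ, add_zero, Complex.norm_real,
      Real.norm_eq_abs, cut_eq_zero (by linarith) (sq_nonneg η)
        (show 1 - 2 * η ≤ |r θ| by linarith [le_abs_self (r θ)]),
      Complex.ofReal_zero, mul_zero]

lemma two_rounds {c : ℤ → ℂ} {d : ℤ → ℝ} (hc : Sign₁ H c) (hd : ∀ k, d k = 1 ∨ d k = -1)
    (hκ : 0 ≤ κ) (hκη : κ ≤ η) (θ : ℝ) :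
    |‖(r θ : ℂ) + g₁ η H r c θ + g₂ η H r c d θ‖ - 1| ≤ 7 * η := by
  obtain ⟨hre, hup, -⟩ := zc_bounds hη hη' hH hr hc hκ θ
  set z := zc η H r c θ with hz
  rw [show (r θ : ℂ) + g₁ η H r c θ = z from rfl]
  set β := d ⌊2 * (H : ℝ) * θ⌋ * cut (1 - 2 * η) (η ^ 2) ‖z‖ with hβ
  have e : g₂ η H r c d θ = Complex.I * (β : ℂ) * ((z + η) / ((‖z + η‖ : ℝ) : ℂ)) := by
    rw [g₂, ← hz, hβ]
    push_cast
    ring
  have hz0 : (‖z + η‖ : ℂ) ≠ 0 := by
    have : η ≤ ‖z + η‖ := le_trans (by simpa using hre) (Complex.re_le_norm _)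
    exact_mod_cast (show ‖z + η‖ ≠ 0 by linarith)
  rw [e]
  by_cases hP : cut (1 - 2 * η) (η ^ 2) ‖z‖ = 0
  · rw [hβ, hP, mul_zero, Complex.ofReal_zero, mul_zero, zero_mul, add_zero, abs_le]
    refine ⟨?_, by linarith⟩
    have h1 := cut_sq_ge (a := 1 - 2 * η) (by rw [abs_of_nonneg (by linarith)]; linarith)
      (sq_nonneg η) ‖z‖
    rw [hP] at h1
    by_contra hlt
    have := le_max_right 0 ((1 - 2 * η) ^ 2 - ‖z‖ ^ 2)
    nlinarith [norm_nonneg z]
  have hlt := lt_of_cut_ne_zero (by linarith) (sq_nonneg η) hP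
  have hβ2 : β ^ 2 = cut (1 - 2 * η) (η ^ 2) ‖z‖ ^ 2 := by
    rw [hβ, mul_pow, ← sq_abs (d _)]
    rcases hd ⌊2 * (H : ℝ) * θ⌋ with h | h <;> simp [h]
  set u := (z + η) / ((‖z + η‖ : ℝ) : ℂ) with hu
  have eB : z + Complex.I * (β : ℂ) * u =
      ((‖z + η‖ : ℂ) + Complex.I * β) * u - η := by
    have : (‖z + η‖ : ℂ) * u = z + η := by rw [hu]; field_simp
    linear_combination -this
  rw [eB]
  set B := ((‖z + η‖ : ℂ) + Complex.I * β) * u with hBdef
  have hB : ‖B‖ ^ 2 = ‖z + η‖ ^ 2 + cut (1 - 2 * η) (η ^ 2) ‖z‖ ^ 2 := by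
    rw [hBdef, norm_mul, hu, norm_unit hη hre, mul_one, norm_sq_re_im, hβ2]
  have hs : ∀ w : ℂ, |‖w + η‖ - ‖w‖| ≤ η := fun w =>
    (abs_norm_sub_norm_le _ _).trans (by simp [abs_of_pos hη])
  have hz1 := abs_le.1 (hs z)
  have hB1 : |‖B - (η : ℂ)‖ - ‖B‖| ≤ η :=
    (abs_norm_sub_norm_le _ _).trans (by simp [abs_of_pos hη])
  rw [abs_le] at hB1
  have ha : |1 - 2 * η| ≤ 1 := by rw [abs_of_nonneg (by linarith)]; linarith
  have h1 := cut_sq_le (a := 1 - 2 * η) (sq_nonneg η) ‖z‖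
  have h2 := cut_sq_ge ha (sq_nonneg η) ‖z‖
  have hpos : 0 ≤ (1 - 2 * η) ^ 2 - ‖z‖ ^ 2 :=
    sub_nonneg.2 (pow_le_pow_left₀ (norm_nonneg z) hlt.le 2)
  rw [max_eq_right hpos] at h1 h2
  obtain ⟨hBlo, hBhi⟩ := second_bound hη hη' (norm_nonneg z) hlt.le (norm_nonneg _) hz1.1 hz1.2
    h1 h2 (norm_nonneg B) hB
  rw [abs_le]
  constructor <;> linarith

end

theorem piecesGoal : PiecesGoal := fun _ _ _ _ _ hη hη' hκ hκη hH hr =>
  ⟨fun _ hc => nice_g₁ hη hη' hr hc, fun _ _ hc hd => nice_g₂ hη hη' hH hr hc hd hκ,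
    fun _ _ hc _ hd θ => two_rounds hη hη' hH hr hc hd hκ hκη θ⟩

end Vale.Agent.P110.Exist.Fill
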