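import Vale.Agent.P110.Exist.Fill.Real
import Vale.Agent.P110.Exist.Fill.Kernel
import Vale.Agent.P110.Exist.Fill.Pieces
import Vale.Agent.P110.Exist.Spencer.Round

/-! Filling and rounding: `FillGoal`. -/

namespace Vale.Agent.P110.Exist.Fill

open Finset

theorem evalP_shift (a' : ℤ → ℝ) (N W : ℕ) (s ψ : ℝ) :
    ‖evalP (fun k => a' ((k : ℤ) - W) / s) (N + 2 * W + 1) ψ‖ =
      ‖∑ t ∈ Icc (-(W : ℤ)) (N + W), (a' t : ℂ) * fe (-(t * (-(ψ / (2 * Real.pi)))))‖ / |s| := by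
  have h : evalP (fun k => a' ((k : ℤ) - W) / s) (N + 2 * W + 1) ψ =
      Complex.exp ((((W : ℝ) * ψ : ℝ) : ℂ) * Complex.I) / (s : ℂ) *
        ∑ t ∈ Icc (-(W : ℤ)) (N + W), (a' t : ℂ) * fe (-(t * (-(ψ / (2 * Real.pi))))) := by
    rw [evalP, mul_sum]
    refine sum_bij' (fun k _ => (k : ℤ) - W) (fun t _ => (t + W).toNat) ?_ ?_ ?_ ?_ ?_
    · intro k hk
      have := mem_range.1 hk
      simp only [mem_Icc]; omega
    · intro t ht
      have := mem_Icc.1 ht
      simp only [mem_range]; omega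
    · intro k _
      omega
    · intro t ht
      have := mem_Icc.1 ht
      omega
    · intro k _
      have e : fe (-((((k : ℤ) - W : ℤ) : ℝ) * (-(ψ / (2 * Real.pi))))) =
          Complex.exp ((((k : ℝ) * ψ - W * ψ : ℝ) : ℂ) * Complex.I) := by
        rw [fe]
        congr 3
        push_cast
        field_simp
      rw [e, Complex.ofReal_div]
      have e2 : Complex.exp ((k : ℂ) * Complex.I * (ψ : ℂ)) =
          Complex.exp ((((W : ℝ) * ψ : ℝ) : ℂ) * Complex.I) *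
            Complex.exp ((((k : ℝ) * ψ - W * ψ : ℝ) : ℂ) * Complex.I) := by
        rw [← Complex.exp_add]
        congr 1
        push_cast
        ring
      rw [e2]
      ring
  rw [h, norm_mul, norm_div, Complex.norm_exp_ofReal_mul_I, Complex.norm_real, Real.norm_eq_abs]
  ring

theorem rounding_bound {K η η₀ : ℝ} (hK : 0 < K) (hη : 0 < η)
    (h : η ≤ (η₀ / (4 * K)) ^ 4 / (30 * K)) (hη₀ : 0 < η₀) (M : ℕ) :
    K * Real.sqrt (30 * η * M * Real.log (K / (30 * η))) ≤ η₀ / 2 * Real.sqrt M := by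
  have h1 : Real.log (K / (30 * η)) ≤ 2 * Real.sqrt (K / (30 * η)) := log_le_two_sqrt (by positivity)
  have h30 : 30 * η * Real.sqrt (K / (30 * η)) = Real.sqrt (30 * η * K) := by
    rw [← Real.sqrt_sq (show 0 ≤ 30 * η by positivity), ← Real.sqrt_mul (sq_nonneg _),
      Real.sqrt_sq (show 0 ≤ 30 * η by positivity)]
    congr 1
    field_simp
  have h2 : Real.sqrt (30 * η * K) ≤ (η₀ / (4 * K)) ^ 2 := by
    rw [Real.sqrt_le_iff]
    refine ⟨by positivity, ?_⟩
    rw [le_div_iff₀ (by positivity)] at h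
    nlinarith
  have h3 : Real.sqrt (30 * η * M * Real.log (K / (30 * η))) ≤
      η₀ / (2 * K) * Real.sqrt M := by
    rw [Real.sqrt_le_iff]
    refine ⟨by positivity, ?_⟩
    rw [mul_pow, Real.sq_sqrt (Nat.cast_nonneg M)]
    calc 30 * η * M * Real.log (K / (30 * η))
        ≤ 30 * η * M * (2 * Real.sqrt (K / (30 * η))) :=
          mul_le_mul_of_nonneg_left h1 (by positivity)
      _ = 2 * M * Real.sqrt (30 * η * K) := by rw [← h30]; ring
      _ ≤ 2 * M * (η₀ / (4 * K)) ^ 2 := mul_le_mul_of_nonneg_left h2 (by positivity)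
      _ ≤ (η₀ / (2 * K)) ^ 2 * M := by
          have : (η₀ / (2 * K)) ^ 2 = 4 * (η₀ / (4 * K)) ^ 2 := by ring
          rw [this]
          nlinarith [sq_nonneg (η₀ / (4 * K)), (Nat.cast_nonneg M : (0 : ℝ) ≤ M)]
  refine (mul_le_mul_of_nonneg_left h3 hK.le).trans (le_of_eq ?_)
  field_simp

/-- The filled sequence, shifted to start at `0` and scaled into `[-1, 1]`. -/
theorem exists_shifted {η : ℝ} {N W : ℕ} (hη : 0 < η) (hη1 : η ≤ 1 / 30) (a' : ℤ → ℝ)
    (hM : ((N + 2 * W + 1 : ℕ) : ℝ) ≤ N * (1 + 2 * η)) (ha : ∀ t, |a' t| ≤ 1 + 3 * η)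
    (hP : ∀ θ : ℝ, |‖∑ t ∈ Icc (-(W : ℤ)) (N + W), (a' t : ℂ) * fe (-(t * θ))‖ - Real.sqrt N| ≤
      11 * η * Real.sqrt N) :
    ∃ x : ℕ → ℝ, (∀ k, |x k| ≤ 1) ∧ NearFlat x (N + 2 * W + 1) (15 * η) := by
  refine ⟨fun k => a' ((k : ℤ) - W) / (1 + 3 * η), fun k => ?_, fun ψ => ?_⟩
  · rw [abs_div, abs_of_pos (by linarith : 0 < 1 + 3 * η), div_le_one (by linarith)]
    exact ha _
  rw [evalP_shift, abs_of_pos (by linarith : 0 < 1 + 3 * η), le_div_iff₀ (by linarith),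
    div_le_iff₀ (by linarith)]
  have h := abs_le.1 (hP (-(ψ / (2 * Real.pi))))
  generalize ‖∑ t ∈ Icc (-(W : ℤ)) (N + W),
    (a' t : ℂ) * fe (-(t * (-(ψ / (2 * Real.pi)))))‖ = P at h ⊢
  set S := Real.sqrt ((N + 2 * W + 1 : ℕ) : ℝ) with hS
  have hs1 : Real.sqrt N ≤ S := Real.sqrt_le_sqrt (by push_cast; linarith)
  have hN0 := Real.sqrt_nonneg (N : ℝ)
  have hs2 : S ≤ (1 + η) * Real.sqrt N := by
    rw [hS, Real.sqrt_le_iff]
    refine ⟨by positivity, hM.trans ?_⟩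
    rw [mul_pow, Real.sq_sqrt (Nat.cast_nonneg N)]
    nlinarith [mul_nonneg (sq_nonneg η) (Nat.cast_nonneg N : (0 : ℝ) ≤ N)]
  constructor
  · have h1 : (1 - 15 * η) * (1 + η) * (1 + 3 * η) ≤ 1 - 11 * η := by
      nlinarith [sq_nonneg η, mul_nonneg hη.le (sq_nonneg η)]
    calc (1 - 15 * η) * S * (1 + 3 * η) ≤ (1 - 15 * η) * ((1 + η) * Real.sqrt N) * (1 + 3 * η) :=
          mul_le_mul_of_nonneg_right (mul_le_mul_of_nonneg_left hs2 (by linarith)) (by linarith)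
      _ = ((1 - 15 * η) * (1 + η) * (1 + 3 * η)) * Real.sqrt N := by ring
      _ ≤ (1 - 11 * η) * Real.sqrt N := mul_le_mul_of_nonneg_right h1 hN0
      _ ≤ P := by linarith [h.1]
  · have h1 : 1 + 11 * η ≤ (1 + 15 * η) * (1 + 3 * η) := by nlinarith
    calc P ≤ (1 + 11 * η) * Real.sqrt N := by linarith [h.2]
      _ ≤ ((1 + 15 * η) * (1 + 3 * η)) * Real.sqrt N := mul_le_mul_of_nonneg_right h1 hN0
      _ ≤ ((1 + 15 * η) * (1 + 3 * η)) * S := mul_le_mul_of_nonneg_left hs1 (by positivity)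
      _ = (1 + 15 * η) * S * (1 + 3 * η) := by ring

/-- Filling and rounding. -/
theorem fillGoal : FillGoal := by
  intro η₀ hη₀
  obtain ⟨K, hK, hround⟩ := Spencer.exists_sign_round
  set η : ℝ := min (1 / 30) (min (η₀ / 30) ((η₀ / (4 * K)) ^ 4 / (30 * K))) with hηdef
  have hη : 0 < η := lt_min (by norm_num) (lt_min (by positivity) (by positivity))
  have hη1 : η ≤ 1 / 30 := min_le_left _ _
  have hη2 : η ≤ η₀ / 30 := (min_le_right _ _).trans (min_le_left _ _)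
  have hη3 : η ≤ (η₀ / (4 * K)) ^ 4 / (30 * K) := (min_le_right _ _).trans (min_le_right _ _)
  obtain ⟨κ, hκ, N₁, hreal⟩ := exists_real piecesGoal kernelGoal η hη hη1
  refine ⟨κ, hκ, N₁ + ⌈K / (30 * η) ^ 2⌉₊, fun N hN hcore => ?_⟩
  obtain ⟨W, a', hM, ha, hP⟩ := hreal N (le_trans (Nat.le_add_right _ _) hN) hcore
  obtain ⟨x, hx, hflat⟩ := exists_shifted hη hη1 a' hM ha hP
  set M := N + 2 * W + 1 with hMdef
  have hdef : ∑ k ∈ range M, (1 - |x k|) ≤ 30 * η * M := by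
    refine (deficiency_le x M (fun k _ => hx k) (δ := 15 * η) (by linarith)
      fun θ => (hflat θ).1).trans (le_of_eq (by ring))
  have hKM : K / (30 * η) ^ 2 ≤ (M : ℝ) :=
    (Nat.le_ceil _).trans (by exact_mod_cast (show ⌈K / (30 * η) ^ 2⌉₊ ≤ M by omega))
  obtain ⟨y, hy, herr⟩ := hround (30 * η) (by linarith) (by linarith) M hKM x (fun k _ => hx k) hdef
  refine ⟨M, by omega, y, fun k _ => hy k, fun θ => ?_⟩
  have hsplit : evalP y M θ = evalP x M θ + evalP (fun k => y k - x k) M θ := by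
    simp only [evalP, ← sum_add_distrib]
    refine sum_congr rfl fun k _ => ?_
    push_cast
    ring
  rw [hsplit]
  have h1 := hflat θ
  have h2 := (herr θ).trans (rounding_bound hK hη hη3 hη₀ M)
  have h3 := norm_add_le (evalP x M θ) (evalP (fun k => y k - x k) M θ)
  have h4 := norm_sub_le (evalP x M θ + evalP (fun k => y k - x k) M θ)
    (evalP (fun k => y k - x k) M θ)
  rw [add_sub_cancel_right] at h4
  have h5 : 15 * η * Real.sqrt M ≤ η₀ / 2 * Real.sqrt M :=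
    mul_le_mul_of_nonneg_right (by linarith) (Real.sqrt_nonneg _)
  constructor <;> linarith [h1.1, h1.2]

end Vale.Agent.P110.Exist.Fill
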