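import Vale.Agent.P110.Exist.Fill.Defs
import Vale.Agent.P110.Exist.Spencer.Full

/-! Signs for a short family of small vectors. -/

namespace Vale.Agent.P110.Exist.Fill

open Finset

theorem log_le_two_sqrt {z : ℝ} (hz : 0 < z) : Real.log z ≤ 2 * Real.sqrt z := by
  have h := Real.log_le_sub_one_of_pos (Real.sqrt_pos.2 hz)
  rw [Real.log_sqrt hz.le] at h
  linarith

theorem exists_signs {α : Type} [DecidableEq α] (S : Finset α) (T : Finset ℤ) (Y : α → ℤ → ℝ)
    {β n₀ : ℝ} (hβ : 0 < β) (hY : ∀ i ∈ S, ∀ t ∈ T, |Y i t| ≤ β) (hn : (#S : ℝ) ≤ n₀)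
    (hST : #S ≤ #T) :
    ∃ σ : α → ℝ, (∀ i, σ i = 1 ∨ σ i = -1) ∧ ∀ t ∈ T, |∑ i ∈ S, σ i * Y i t| ≤
      42 * β * Real.sqrt (2 * Real.sqrt (400 * (#T : ℝ) * n₀)) := by
  rcases S.eq_empty_or_nonempty with rfl | hS
  · exact ⟨fun _ => 1, fun _ => Or.inl rfl, fun t _ => by simp; positivity⟩
  obtain ⟨b, hb, -, hdisc⟩ := Spencer.exists_rounding (J := T)
    (fun t i => Y i (t : ℤ) / β) S hS (by rwa [Fintype.card_coe]) (fun t i hi => by
      rw [abs_div, abs_of_pos hβ, div_le_one hβ]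
      exact hY i hi t t.2) (fun _ => 0) (fun i _ => by simp)
  refine ⟨fun i => if i ∈ S then b i else 1, fun i => ?_, fun t ht => ?_⟩
  · by_cases h : i ∈ S
    · simp only [h, if_true]; exact hb i h
    · simp [h]
  have h := hdisc ⟨t, ht⟩
  have hsum : ∑ i ∈ S, (if i ∈ S then b i else 1) * Y i t =
      β * ∑ i ∈ S, Y i t / β * (b i - 0) := by
    rw [mul_sum]
    refine sum_congr rfl fun i hi => ?_
    rw [if_pos hi, sub_zero]
    field_simp
  rw [hsum, abs_mul, abs_of_pos hβ, mul_comm (42 : ℝ) β, mul_assoc β]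
  refine mul_le_mul_of_nonneg_left (h.trans (mul_le_mul_of_nonneg_left ?_ (by norm_num))) hβ.le
  rw [Spencer.scale, Fintype.card_coe]
  refine Real.sqrt_le_sqrt ?_
  have hS0 : (0 : ℝ) < #S := by exact_mod_cast hS.card_pos
  have hT0 : (0 : ℝ) < #T := hS0.trans_le (by exact_mod_cast hST)
  refine (mul_le_mul_of_nonneg_left (log_le_two_sqrt (by positivity)) hS0.le).trans ?_
  rw [mul_left_comm]
  refine mul_le_mul_of_nonneg_left ?_ two_pos.le
  rw [← Real.sqrt_sq hS0.le, ← Real.sqrt_mul (sq_nonneg _), Real.sqrt_sq hS0.le]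
  refine Real.sqrt_le_sqrt ?_
  rw [show (#S : ℝ) ^ 2 * (400 * (#T : ℝ) / #S) = 400 * (#T : ℝ) * #S by field_simp]
  exact mul_le_mul_of_nonneg_left hn (by positivity)

end Vale.Agent.P110.Exist.Fill
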