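import Vale.Agent.P110.Exist.Fill.Weights
import Vale.Agent.P110.Exist.Fill.Coeff
import Vale.Agent.P110.Exist.Fill.Signs
import Vale.Agent.P110.Exist.Fill.Arith

/-! The filled real sequence (before rounding). -/

namespace Vale.Agent.P110.Exist.Fill

open Finset
open scoped ComplexConjugate

/-- The sign-weighted, band-limited coefficient vector of one atom. -/
noncomputable def yvec (N : ℕ) (m : ℤ → ℝ) (U g : ℝ → ℂ) (t : ℤ) : ℝ :=
  Real.sqrt N * m t * (fcoef U g t).re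

theorem abs_yvec_le {N H : ℕ} {m : ℤ → ℝ} {U g : ℝ → ℂ} (hm : ∀ t, |m t| ≤ 1)
    (hU : ∀ x, ‖U x‖ = 1) (hg : (∫ θ in (0 : ℝ)..1, ‖g θ‖) ≤ 1 / H) (t : ℤ) :
    |yvec N m U g t| ≤ Real.sqrt N / H := by
  rw [yvec, abs_mul, abs_mul, abs_of_nonneg (Real.sqrt_nonneg _), mul_assoc, div_eq_mul_one_div]
  refine mul_le_mul_of_nonneg_left ?_ (Real.sqrt_nonneg _)
  exact (mul_le_of_le_one_left (abs_nonneg _) (hm t)).trans ((abs_fcoef_re_le hU t).trans hg)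

theorem continuous_U {U : ℝ → ℂ} {ν : ℝ → ℝ} {A B : ℝ}
    (hU : ∀ x, ‖U x‖ = 1) (hν : ∀ θ, |ν θ| ≤ A)
    (h : ∀ θ s, ‖U (θ + s) - U θ * fe (ν θ * s)‖ ≤ B * s ^ 2) : Continuous U := by
  refine continuous_iff_continuousAt.2 fun θ => ?_
  rw [ContinuousAt, tendsto_iff_norm_sub_tendsto_zero]
  refine squeeze_zero (fun x => norm_nonneg _)
    (g := fun x => B * (x - θ) ^ 2 + 2 * Real.pi * A * |x - θ|) (fun x => ?_) ?_
  · have h1 := h θ (x - θ)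
    rw [add_sub_cancel] at h1
    have h2 : ‖U θ * fe (ν θ * (x - θ)) - U θ‖ ≤ 2 * Real.pi * A * |x - θ| := by
      have := norm_fe_sub_fe_le (ν θ * (x - θ)) 0
      rw [show fe 0 = 1 by simp [fe], sub_zero, abs_mul] at this
      rw [← mul_sub_one, norm_mul, hU, one_mul]
      refine this.trans ?_
      rw [← mul_assoc]
      exact mul_le_mul_of_nonneg_right (mul_le_mul_of_nonneg_left (hν θ) Real.two_pi_pos.le)
        (abs_nonneg _)
    linarith [norm_sub_le_norm_sub_add_norm_sub (U x) (U θ * fe (ν θ * (x - θ))) (U θ)]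
  · have : Continuous fun x : ℝ => B * (x - θ) ^ 2 + 2 * Real.pi * A * |x - θ| := by fun_prop
    simpa using this.tendsto θ

theorem continuous_of_nice {L a : ℝ} {ρ : ℝ → ℝ} {g : ℝ → ℂ} (h : Nice L a ρ g) (hL : 0 ≤ L) :
    Continuous g :=
  (LipschitzWith.of_dist_le_mul (K := L.toNNReal) fun x y => by
    rw [dist_eq_norm, Real.dist_eq, Real.coe_toNNReal _ hL]
    exact h.lip x y).continuous

/-- Evaluation of the filled sequence. -/
theorem filled_eq {N W : ℕ} (a : ℕ → ℝ) (m : ℤ → ℝ) {U g : ℝ → ℂ}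
    (hU2 : ∀ x, U (x + 1) = U x ∧ U (-x) = conj (U x))
    (hgp : ∀ x, g (x + 1) = g x) (hgs : ∀ x, g (-x) = conj (g x)) (θ : ℝ) :
    ∑ t ∈ Icc (-(W : ℤ)) (N + W),
      (((if 0 ≤ t ∧ t < (N : ℤ) then a t.toNat else 0) + yvec N m U g t : ℝ) : ℂ) * fe (-(t * θ)) =
      evalP a N (-(2 * Real.pi * θ)) + ((Real.sqrt N : ℝ) : ℂ) *
        ∑ t ∈ Icc (-(W : ℤ)) (N + W), (m t : ℂ) * fcoef U g t * fe (-(t * θ)) := by
  simp only [Complex.ofReal_add, add_mul, sum_add_distrib, mul_sum]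
  congr 1
  · rw [← sum_subset (s₁ := (range N).map Nat.castEmbedding) (fun t ht => ?_) fun t _ ht => ?_,
      sum_map, evalP]
    · refine sum_congr rfl fun k hk => ?_
      have hk' := mem_range.1 hk
      simp only [Nat.castEmbedding_apply, Int.toNat_natCast]
      rw [if_pos (by omega), fe]
      congr 1
      congr 1
      push_cast
      ring
    · obtain ⟨k, hk, rfl⟩ := mem_map.1 ht
      have := mem_range.1 hk
      simp only [mem_Icc, Nat.castEmbedding_apply]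
      omega
    · rw [if_neg ?_, Complex.ofReal_zero, zero_mul]
      rintro ⟨h0, h1⟩
      exact ht (mem_map.2 ⟨t.toNat, mem_range.2 (by omega), Int.toNat_of_nonneg h0⟩)
  · refine sum_congr rfl fun t _ => ?_
    conv_rhs => rw [fcoef_eq_re hU2 hgp hgs t]
    rw [yvec]
    push_cast
    ring

/-- The local model of `U * g` needed by the kernel lemma. -/
theorem model_le {κ L : ℝ} {N : ℕ} {U g : ℝ → ℂ} {ν : ℝ → ℝ} (hU1 : ∀ x, ‖U x‖ = 1)
    (hUlip : ∀ θ s, ‖U (θ + s) - U θ * fe (ν θ * s)‖ ≤ κ * ((N : ℝ) * s) ^ 2)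
    (hglip : ∀ x y, ‖g x - g y‖ ≤ L * |x - y|) (hg2 : ∀ x, ‖g x‖ ≤ 2) (θ s : ℝ) :
    ‖U (θ - s) * g (θ - s) - U θ * g θ * fe (-(((⌊ν θ⌋ : ℤ) : ℝ) * s))‖ ≤
      (L + 26) * |s| + 2 * κ * (N : ℝ) ^ 2 * s ^ 2 := by
  have e1 : ‖g (θ - s) - g θ‖ ≤ L * |s| := by
    have := hglip (θ - s) θ
    rwa [sub_sub_cancel_left, abs_neg] at this
  have e2 := hg2 θ
  have e3 : ‖U (θ - s) - U θ * fe (-(((⌊ν θ⌋ : ℤ) : ℝ) * s))‖ ≤
      κ * (N : ℝ) ^ 2 * s ^ 2 + 13 * |s| := by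
    have q1 := hUlip θ (-s)
    rw [← sub_eq_add_neg, show κ * ((N : ℝ) * -s) ^ 2 = κ * (N : ℝ) ^ 2 * s ^ 2 by ring] at q1
    have q2 := norm_fe_sub_fe_le (ν θ * -s) (-(((⌊ν θ⌋ : ℤ) : ℝ) * s))
    have q3 : |ν θ * -s - -(((⌊ν θ⌋ : ℤ) : ℝ) * s)| ≤ |s| := by
      rw [show ν θ * -s - -(((⌊ν θ⌋ : ℤ) : ℝ) * s) = -((ν θ - ⌊ν θ⌋) * s) by ring, abs_neg,
        abs_mul]
      refine mul_le_of_le_one_left (abs_nonneg _) ?_
      rw [abs_le]
      constructor <;> linarith [Int.floor_le (ν θ), Int.lt_floor_add_one (ν θ)]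
    have q4 : ‖U θ * fe (ν θ * -s) - U θ * fe (-(((⌊ν θ⌋ : ℤ) : ℝ) * s))‖ ≤ 13 * |s| := by
      rw [← mul_sub, norm_mul, hU1, one_mul]
      refine q2.trans ((mul_le_mul_of_nonneg_left q3 Real.two_pi_pos.le).trans ?_)
      exact mul_le_mul_of_nonneg_right (by linarith [Real.pi_le_four]) (abs_nonneg _)
    linarith [norm_sub_le_norm_sub_add_norm_sub (U (θ - s)) (U θ * fe (ν θ * -s))
      (U θ * fe (-(((⌊ν θ⌋ : ℤ) : ℝ) * s)))]
  rw [show U (θ - s) * g (θ - s) - U θ * g θ * fe (-(((⌊ν θ⌋ : ℤ) : ℝ) * s)) =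
    U (θ - s) * (g (θ - s) - g θ) +
      g θ * (U (θ - s) - U θ * fe (-(((⌊ν θ⌋ : ℤ) : ℝ) * s))) by ring]
  refine (norm_add_le _ _).trans ?_
  rw [norm_mul, norm_mul, hU1, one_mul]
  nlinarith [mul_le_mul e2 e3 (norm_nonneg _) two_pos.le]

/-- The coefficients of the filled target split over the atoms. -/
theorem yvec_split {η : ℝ} {N H : ℕ} {r : ℝ → ℝ} {m : ℤ → ℝ} {U : ℝ → ℂ} {L₁ L₂ : ℝ}
    (hper : Function.Periodic r 1) (he : ∀ θ, r (-θ) = r θ) (hH : 0 < H) (hUc : Continuous U)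
    (hL₁0 : 0 ≤ L₁) (hL₂0 : 0 ≤ L₂) (σ τ : ℕ → ℝ)
    (hn1fix : Nice L₁ (1 - η) r (g₁ η H r (fix₁ H)))
    (hn1atom : ∀ k ∈ Ioo 0 H, Nice L₁ (1 - η) r (g₁ η H r (atom₁ H k)))
    (hn2atom : ∀ j ∈ range H, Nice L₂ (1 - η) r (g₂ η H r (data₁ H σ) (atom₂ H j))) (t : ℤ) :
    yvec N m U (fun x => g₁ η H r (data₁ H σ) x + g₂ η H r (data₁ H σ) (data₂ H τ) x) t =
      yvec N m U (g₁ η H r (fix₁ H)) t +
        ∑ k ∈ used₁ η H r, σ k * yvec N m U (g₁ η H r (atom₁ H k)) t +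
        ∑ j ∈ used₂ η H r, τ j * yvec N m U (g₂ η H r (data₁ H σ) (atom₂ H j)) t := by
  have hu1 : used₁ η H r ⊆ Ioo 0 H := by classical exact filter_subset _ _
  have hu2 : used₂ η H r ⊆ range H := by classical exact filter_subset _ _
  set c := data₁ H σ with hc
  set g : ℝ → ℂ := fun x => g₁ η H r c x + g₂ η H r c (data₂ H τ) x with hg
  have hsplit : fcoef U g t = fcoef U (g₁ η H r (fix₁ H)) t +
      ∑ k ∈ used₁ η H r, (σ k : ℂ) * fcoef U (g₁ η H r (atom₁ H k)) t +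
      ∑ j ∈ used₂ η H r, (τ j : ℂ) * fcoef U (g₂ η H r c (atom₂ H j)) t := by
    have hc1 : ∀ k ∈ used₁ η H r, Continuous (g₁ η H r (atom₁ H k)) :=
      fun k hk => continuous_of_nice (hn1atom k (hu1 hk)) hL₁0
    have hc2 : ∀ j ∈ used₂ η H r, Continuous (g₂ η H r c (atom₂ H j)) :=
      fun j hj => continuous_of_nice (hn2atom j (hu2 hj)) hL₂0
    have hfixc := continuous_of_nice hn1fix hL₁0
    have hS1 : Continuous fun x => ∑ k ∈ used₁ η H r, (σ k : ℂ) * g₁ η H r (atom₁ H k) x :=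
      continuous_finsetSum _ fun k hk => continuous_const.mul (hc1 k hk)
    have hS2 : Continuous fun x => ∑ j ∈ used₂ η H r, (τ j : ℂ) * g₂ η H r c (atom₂ H j) x :=
      continuous_finsetSum _ fun k hk => continuous_const.mul (hc2 k hk)
    rw [← fcoef_sum _ σ _ hUc hc1, ← fcoef_sum _ τ _ hUc hc2, ← fcoef_add hUc hfixc hS1,
      ← fcoef_add (g := fun x => g₁ η H r (fix₁ H) x +
          ∑ k ∈ used₁ η H r, (σ k : ℂ) * g₁ η H r (atom₁ H k) x) hUc (hfixc.add hS1) hS2]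
    congr 1
    funext x
    simp only [hg, hc, g₁_data, g₂_data]
    congr 1
    · congr 1
      refine (sum_subset hu1 fun k hk hk' => ?_).symm
      rw [unused₁ hper he hH hk hk' (hn1atom k hk), mul_zero]
    · refine (sum_subset hu2 fun k hk hk' => ?_).symm
      rw [unused₂ hper he hH hk hk' (hn2atom k hk), mul_zero]
  simp only [yvec, hsplit, Complex.add_re, Complex.re_sum, Complex.re_ofReal_mul, mul_add,
    mul_sum]
  congr 1
  · congr 1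
    exact sum_congr rfl fun k _ => by ring
  · exact sum_congr rfl fun k _ => by ring

/-- The filled polynomial is close to `√N` in modulus. -/
theorem filled_close {η κ L : ℝ} {N w : ℕ} {a : ℕ → ℝ} {m : ℤ → ℝ} {r ν : ℝ → ℝ} {U g : ℝ → ℂ}
    (hU1 : ∀ x, ‖U x‖ = 1) (hU2 : ∀ x, U (x + 1) = U x ∧ U (-x) = conj (U x)) (hUc : Continuous U)
    (hUlip : ∀ θ s, ‖U (θ + s) - U θ * fe (ν θ * s)‖ ≤ κ * ((N : ℝ) * s) ^ 2)
    (hν : ∀ θ, -((1 + κ) * N) ≤ ν θ ∧ ν θ ≤ κ * N)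
    (happ : ∀ θ, ‖evalP a N (-(2 * Real.pi * θ)) - ((Real.sqrt N * r θ : ℝ) : ℂ) * U θ‖ ≤
      κ * Real.sqrt N)
    (hgp : ∀ x, g (x + 1) = g x) (hgs : ∀ x, g (-x) = conj (g x)) (hgc : Continuous g)
    (hglip : ∀ x y, ‖g x - g y‖ ≤ L * |x - y|) (hg2 : ∀ x, ‖g x‖ ≤ 2)
    (hF : ∀ x, |‖(r x : ℂ) + g x‖ - 1| ≤ 7 * η) (_hm : ∀ t, |m t| ≤ 1)
    (hband : ∀ (V : ℝ → ℂ) (A B θ : ℝ) (n : ℤ), Continuous V → (∀ x, V (x + 1) = V x) →
      -(4 * (w : ℤ)) + 2 * w ≤ -n → -n ≤ (N : ℤ) + 4 * w - 2 * w → 0 ≤ A → 0 ≤ B →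
      (∀ s : ℝ, ‖V (θ - s) - V θ * fe (-(n * s))‖ ≤ A * |s| + B * s ^ 2) →
      ‖∑ t ∈ Finset.Icc (-(4 * (w : ℤ)) - 2 * (w : ℤ)) ((N : ℤ) + 4 * w + 2 * w),
          (m t : ℂ) * (∫ φ in (0 : ℝ)..1, V φ * fe (t * φ)) * fe (-(t * θ)) - V θ‖ ≤
        A / w + B / (w : ℝ) ^ 2)
    (herr : (L + 26) / w + 2 * κ * (N : ℝ) ^ 2 / (w : ℝ) ^ 2 ≤ 2 * η) (hκη : κ ≤ η)
    (hκN : κ * N + 1 ≤ 2 * w) (θ : ℝ) :
    |‖∑ t ∈ Icc (-((6 * w : ℕ) : ℤ)) ((N : ℤ) + (6 * w : ℕ)),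
        (((if 0 ≤ t ∧ t < (N : ℤ) then a t.toNat else 0) + yvec N m U g t : ℝ) : ℂ) *
          fe (-(t * θ))‖ - Real.sqrt N| ≤ 11 * η * Real.sqrt N := by
  have hκ0 : 0 ≤ κ * (N : ℝ) ^ 2 := by
    have := (norm_nonneg _).trans (hUlip 0 1)
    rwa [mul_one] at this
  have hL0 : 0 ≤ L := by
    have := (norm_nonneg _).trans (hglip 0 1)
    simpa using this
  rw [filled_eq a m hU2 hgp hgs θ]
  have hn1 : -(4 * (w : ℤ)) + 2 * w ≤ -⌊ν θ⌋ := by
    have : ((⌊ν θ⌋ : ℤ) : ℝ) ≤ 2 * w := by linarith [Int.floor_le (ν θ), (hν θ).2]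
    have h' : ⌊ν θ⌋ ≤ 2 * (w : ℤ) := by exact_mod_cast this
    omega
  have hn2 : -⌊ν θ⌋ ≤ (N : ℤ) + 4 * w - 2 * w := by
    have : -((⌊ν θ⌋ : ℤ) : ℝ) ≤ N + 2 * w := by
      linarith [Int.lt_floor_add_one (ν θ), (hν θ).1]
    have h' : -⌊ν θ⌋ ≤ (N : ℤ) + 2 * w := by exact_mod_cast this
    omega
  have hker := hband (fun x => U x * g x) (L + 26) (2 * κ * (N : ℝ) ^ 2) θ ⌊ν θ⌋
    (hUc.mul hgc) (fun x => by rw [(hU2 x).1, hgp x]) hn1 hn2 (by linarith)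
    (by linarith) (fun s => model_le hU1 hUlip hglip hg2 θ s)
  have hIcc : Icc (-(4 * (w : ℤ)) - 2 * w) ((N : ℤ) + 4 * w + 2 * w) =
      Icc (-((6 * w : ℕ) : ℤ)) ((N : ℤ) + (6 * w : ℕ)) := by push_cast; congr 1 <;> ring
  rw [hIcc] at hker
  have hG : ‖(∑ t ∈ Icc (-((6 * w : ℕ) : ℤ)) ((N : ℤ) + (6 * w : ℕ)),
      (m t : ℂ) * fcoef U g t * fe (-(t * θ))) - U θ * g θ‖ ≤ 2 * η := le_trans hker herr
  generalize (∑ t ∈ Icc (-((6 * w : ℕ) : ℤ)) ((N : ℤ) + (6 * w : ℕ)),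
      (m t : ℂ) * fcoef U g t * fe (-(t * θ))) = G at hG ⊢
  generalize hP : evalP a N (-(2 * Real.pi * θ)) = P
  have hFn : ‖((Real.sqrt N : ℝ) : ℂ) * (U θ * ((r θ : ℂ) + g θ))‖ =
      Real.sqrt N * ‖(r θ : ℂ) + g θ‖ := by
    rw [norm_mul, norm_mul, hU1, one_mul, Complex.norm_real,
      Real.norm_of_nonneg (Real.sqrt_nonneg _)]
  have hdiff : ‖(P + ((Real.sqrt N : ℝ) : ℂ) * G) -
      ((Real.sqrt N : ℝ) : ℂ) * (U θ * ((r θ : ℂ) + g θ))‖ ≤ (κ + 2 * η) * Real.sqrt N := by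
    rw [show (P + ((Real.sqrt N : ℝ) : ℂ) * G) -
      ((Real.sqrt N : ℝ) : ℂ) * (U θ * ((r θ : ℂ) + g θ)) =
      (P - ((Real.sqrt N * r θ : ℝ) : ℂ) * U θ) +
        ((Real.sqrt N : ℝ) : ℂ) * (G - U θ * g θ) by push_cast; ring]
    refine (norm_add_le _ _).trans ?_
    rw [norm_mul, Complex.norm_real, Real.norm_of_nonneg (Real.sqrt_nonneg _), add_mul]
    have h1 := happ θ
    rw [hP] at h1
    exact add_le_add h1 ((mul_le_mul_of_nonneg_left hG (Real.sqrt_nonneg _)).trans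
      (le_of_eq (by ring)))
  have hrev := (abs_norm_sub_norm_le _ _).trans hdiff
  rw [hFn] at hrev
  have hF7 : |Real.sqrt N * ‖(r θ : ℂ) + g θ‖ - Real.sqrt N| ≤ 7 * η * Real.sqrt N := by
    rw [← mul_sub_one, abs_mul, abs_of_nonneg (Real.sqrt_nonneg _), mul_comm]
    exact mul_le_mul_of_nonneg_right (hF θ) (Real.sqrt_nonneg _)
  have hκs : κ * Real.sqrt N ≤ η * Real.sqrt N :=
    mul_le_mul_of_nonneg_right hκη (Real.sqrt_nonneg _)
  have hs : 0 ≤ η * Real.sqrt N := by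
    have := (abs_nonneg _).trans hF7
    linarith
  rw [abs_le] at hrev hF7 ⊢
  constructor <;> linarith [hrev.1, hrev.2, hF7.1, hF7.2]

/-- The real sequence obtained from a core by filling. -/
theorem exists_real (hP : PiecesGoal) (hK : KernelGoal) (η : ℝ) (hη : 0 < η) (hη1 : η ≤ 1 / 30) :
    ∃ κ : ℝ, 0 < κ ∧ ∃ N₀ : ℕ, ∀ N, N₀ ≤ N → Core κ N →
      ∃ (W : ℕ) (a' : ℤ → ℝ), ((N + 2 * W + 1 : ℕ) : ℝ) ≤ N * (1 + 2 * η) ∧
        (∀ t, |a' t| ≤ 1 + 3 * η) ∧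
        ∀ θ : ℝ, |‖∑ t ∈ Icc (-(W : ℤ)) (N + W), (a' t : ℂ) * fe (-(t * θ))‖ - Real.sqrt N| ≤
          11 * η * Real.sqrt N := by
  set h : ℝ := 10000 / η ^ 6 with hh
  set κ : ℝ := η ^ 24 / 10 ^ 30 with hκdef
  have hη' : η ≤ 1 := by linarith
  have hh0 : 0 < h := by positivity
  have hκ0 : 0 < κ := by positivity
  refine ⟨κ, hκ0, ⌈h ^ 2 / η ^ 2⌉₊ + ⌈416 / η ^ 2⌉₊, fun N hN hcore => ?_⟩
  obtain ⟨a, r, U, ν, ha, hr, hrlip, hint, hzero, hU, hν, hUlip, happ⟩ := hcore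
  have hN1 : h ^ 2 / η ^ 2 ≤ N :=
    (Nat.le_ceil _).trans (by exact_mod_cast le_trans (Nat.le_add_right _ _) hN)
  have hN2 : 416 / η ^ 2 ≤ N :=
    (Nat.le_ceil _).trans (by exact_mod_cast le_trans (Nat.le_add_left _ _) hN)
  obtain ⟨hh1, hhN, h416, hNpos, hhN', hηN, hκh, hκ1⟩ := const_facts hη hη' hh hκdef hN1 hN2
  set H : ℕ := ⌈(N : ℝ) / h⌉₊ with hHdef
  obtain ⟨hH, hHhi, hκH, hHN, hβ, hfixsmall, hsmall, hn0⟩ :=
    piece_facts hη hη' hκ0 hHdef hh1 hhN' hNpos hκh hhN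
  have hrad : Radial κ N H r := by
    refine ⟨fun θ => (hr θ).1, fun θ => (hr θ).2.1, fun θ => (hr θ).2.2.1, fun θ => (hr θ).2.2.2,
      hrlip, fun θ hθ => hzero θ (hθ.trans ?_)⟩
    exact div_le_div_of_nonneg_left zero_le_one (mul_pos hκ0 hNpos) hκH
  have hper : Function.Periodic r 1 := hrad.periodic
  obtain ⟨hp1, hp2, hp3⟩ := hP η κ N H r hη (by linarith) hκ0.le (by linarith) hH hrad
  set L₁ : ℝ := 10 / η ^ 2 * (H + κ * N) with hL₁
  set L₂ : ℝ := 100 / η ^ 4 * (H + κ * N) with hL₂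
  have hL₁0 : 0 ≤ L₁ := by positivity
  have hL₂0 : 0 ≤ L₂ := by positivity
  have hU1 : ∀ x, ‖U x‖ = 1 := fun x => (hU x).1
  have hU2 : ∀ x, U (x + 1) = U x ∧ U (-x) = conj (U x) := fun x => (hU x).2
  have hUc : Continuous U := by
    refine continuous_U (A := 2 * N) (B := κ * (N : ℝ) ^ 2) hU1 (fun θ => abs_le.2 ⟨?_, ?_⟩)
      fun θ s => (hUlip θ s).trans (le_of_eq (by ring))
    · linarith [(hν θ).1, mul_le_mul_of_nonneg_right (show κ ≤ 1 by linarith) hNpos.le]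
    · linarith [(hν θ).2, mul_le_mul_of_nonneg_right (show κ ≤ 1 by linarith) hNpos.le]
  set w : ℕ := ⌊η * N / 8⌋₊ + 1 with hw
  obtain ⟨hwlo, hwM⟩ := width_facts hη hηN
  rw [← hw] at hwlo hwM
  obtain ⟨m, hm, hband⟩ := hK w (-(4 * (w : ℤ))) (N + 4 * w) (by omega) (by omega)
  refine ⟨6 * w, ?_⟩
  have hIcc : Icc (-(4 * (w : ℤ)) - 2 * w) ((N : ℤ) + 4 * w + 2 * w) =
      Icc (-((6 * w : ℕ) : ℤ)) ((N : ℤ) + (6 * w : ℕ)) := by push_cast; congr 1 <;> ring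
  set T := Icc (-((6 * w : ℕ) : ℤ)) ((N : ℤ) + (6 * w : ℕ)) with hT
  have hTcard : #T = N + 2 * (6 * w) + 1 := by rw [hT, Int.card_Icc]; omega
  have hTle := hwM
  have hT2 : (#T : ℝ) ≤ 2 * N := by
    rw [hTcard]
    exact hwM.trans ((mul_le_mul_of_nonneg_left (by linarith) hNpos.le).trans (le_of_eq (mul_comm _ _)))
  have hHT : 2 * H ≤ #T := by omega
  set n₀ : ℝ := 32 * κ * N / (h * η) with hn₀
  have hcount : ∀ (c : ℝ) (P : Finset ℕ), (∀ k ∈ P, k < 2 * H ∧ ∃ θ,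
      ((k : ℝ) + c) / (2 * H : ℕ) ≤ θ ∧ θ ≤ ((k : ℝ) + 1 + c) / (2 * H : ℕ) ∧ r θ < 1 - η) →
      (#P : ℝ) ≤ n₀ := fun c P hPc =>
    (card_used_le (2 * H) (by omega) c hη hη' hκ0.le (by linarith) hrad.periodic
      hrad.nonneg hrad.le hrlip hint hsmall P hPc).trans hn0
  have hspencer : 42 * (Real.sqrt N / H) *
      Real.sqrt (2 * Real.sqrt (400 * (#T : ℝ) * n₀)) ≤ η :=
    spencer_const hη hη' hh hκdef hNpos hT2 hβ
  -- first round
  have hn1fix := hp1 _ (weight₁_fix H)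
  have hn1atom : ∀ k ∈ Ioo 0 H, Nice L₁ (1 - η) r (g₁ η H r (atom₁ H k)) :=
    fun k hk => hp1 _ (weight₁_atom hk)
  have hu1 : used₁ η H r ⊆ Ioo 0 H := by classical exact filter_subset _ _
  obtain ⟨σ, hσ, hσb⟩ := exists_signs (used₁ η H r) T
    (fun k t => yvec N m U (g₁ η H r (atom₁ H k)) t) (β := Real.sqrt N / H) (n₀ := n₀)
    (by positivity) (fun k hk t _ => abs_yvec_le hm hU1 (integral_g₁_le hH _ {k, 2 * H - k}
      (card_le_two) (fun x hx hne => atom₁_eq_zero (hu1 hk) hx hne) (hn1atom k (hu1 hk)) hL₁0) t)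
    (hcount (-1 / 2) _ (by
      classical
      intro k hk
      rw [used₁, mem_filter] at hk
      exact ⟨by have := (mem_Ioo.1 hk.1).2; omega, hk.2⟩))
    ((card_le_card hu1).trans (by rw [Nat.card_Ioo]; omega))
  set c := data₁ H σ with hc
  have hsign := sign₁_data (σ := σ) hσ hH
  -- second round
  have hn2atom : ∀ j ∈ range H, Nice L₂ (1 - η) r (g₂ η H r c (atom₂ H j)) :=
    fun j hj => hp2 c _ hsign (weight₂_atom hj)
  have hu2 : used₂ η H r ⊆ range H := by classical exact filter_subset _ _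
  obtain ⟨τ, hτ, hτb⟩ := exists_signs (used₂ η H r) T
    (fun j t => yvec N m U (g₂ η H r c (atom₂ H j)) t) (β := Real.sqrt N / H) (n₀ := n₀)
    (by positivity) (fun j hj t _ => abs_yvec_le hm hU1 (integral_g₂_le hH _ _ {j, 2 * H - 1 - j}
      (card_le_two) (fun x hx hne => atom₂_eq_zero (hu2 hj) hx hne) (hn2atom j (hu2 hj)) hL₂0) t)
    (hcount 0 _ (by
      classical
      intro k hk
      rw [used₂, mem_filter] at hk
      exact ⟨by have := mem_range.1 hk.1; omega, hk.2⟩))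
    ((card_le_card hu2).trans (by rw [card_range]; omega))
  set d := data₂ H τ with hd
  obtain ⟨hw2, hd1⟩ := data₂_spec (σ := τ) hτ hH
  have hN1c := hp1 c hsign.toWeight₁
  have hN2c := hp2 c d hsign hw2
  set g : ℝ → ℂ := fun x => g₁ η H r c x + g₂ η H r c d x with hg
  have hg1c := continuous_of_nice hN1c hL₁0
  have hg2c := continuous_of_nice hN2c hL₂0
  have hgp : ∀ x, g (x + 1) = g x := fun x => by simp only [hg, hN1c.periodic, hN2c.periodic]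
  have hgs : ∀ x, g (-x) = conj (g x) := fun x => by
    simp only [hg, hN1c.symm, hN2c.symm, map_add]
  let base : ℤ → ℝ := fun t => if 0 ≤ t ∧ t < (N : ℤ) then a t.toNat else 0
  refine ⟨fun t => if t ∈ T then base t + yvec N m U g t else 0, hTle, fun t => ?_, fun θ => ?_⟩
  · dsimp only
    split_ifs with ht
    swap
    · rw [abs_zero]; linarith
    have hb : |base t| ≤ 1 := by
      simp only [base]
      split_ifs
      · exact ha _
      · simp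
    have hy : yvec N m U g t = yvec N m U (g₁ η H r (fix₁ H)) t +
        ∑ k ∈ used₁ η H r, σ k * yvec N m U (g₁ η H r (atom₁ H k)) t +
        ∑ j ∈ used₂ η H r, τ j * yvec N m U (g₂ η H r c (atom₂ H j)) t :=
      yvec_split hper hrad.even hH hUc hL₁0 hL₂0 σ τ hn1fix hn1atom hn2atom t
    have h1 := (hσb t ht).trans hspencer
    have h2 := (hτb t ht).trans hspencer
    have h3 : |yvec N m U (g₁ η H r (fix₁ H)) t| ≤ η :=
      (abs_yvec_le hm hU1 (integral_g₁_le hH _ {0, H} card_le_two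
        (fun x hx hne => fix₁_eq_zero hx hne) hn1fix hL₁0) t).trans hfixsmall
    rw [hy]
    rw [abs_le] at hb h1 h2 h3 ⊢
    constructor <;> linarith [hb.1, hb.2, h1.1, h1.2, h2.1, h2.2, h3.1, h3.2]
  · rw [sum_congr rfl fun t ht => show _ = ((base t + yvec N m U g t : ℝ) : ℂ) * fe (-(t * θ)) by
      dsimp only; rw [if_pos ht]]
    refine filled_close (κ := κ) (L := L₁ + L₂) (w := w) hU1 hU2 hUc hUlip hν happ hgp hgs
      (hg1c.add hg2c) (fun x y => ?_) (fun x => ?_) (fun x => ?_) hm hband ?_ (by linarith) ?_ θ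
    · simp only [hg]
      rw [add_sub_add_comm, add_mul]
      exact (norm_add_le _ _).trans (add_le_add (hN1c.lip x y) (hN2c.lip x y))
    · exact (norm_add_le _ _).trans (by linarith [hN1c.le x, hN2c.le x])
    · simp only [hg, ← add_assoc]
      exact hp3 c d hsign hw2 hd1 x
    · exact kernel_err hη hη' hh hκdef hHhi (by linarith) hwlo h416
        rfl
    · linarith [mul_le_mul_of_nonneg_right hκ1 hNpos.le]

end Vale.Agent.P110.Exist.Fill
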