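import Vale.Agent.P110.Exist.Fill.Count

/-! Sign data of the two rounds as linear combinations of atoms. -/

namespace Vale.Agent.P110.Exist.Fill

open Finset
open scoped ComplexConjugate

/-- The first round atom of the pair of pieces `±k`. -/
def atom₁ (H k : ℕ) (x : ℤ) : ℂ :=
  if (2 * H : ℤ) ∣ x - k then Complex.I else if (2 * H : ℤ) ∣ x + k then -Complex.I else 0

/-- The two fixed pieces. -/
def fix₁ (H : ℕ) (x : ℤ) : ℂ := if (H : ℤ) ∣ x then 1 else 0

/-- First round data from signs. -/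
def data₁ (H : ℕ) (σ : ℕ → ℝ) (x : ℤ) : ℂ :=
  fix₁ H x + ∑ k ∈ Ioo 0 H, (σ k : ℂ) * atom₁ H k x

/-- The second round atom of the pair of junctions `j`, `-1-j`. -/
def atom₂ (H j : ℕ) (x : ℤ) : ℝ :=
  if (2 * H : ℤ) ∣ x - j then 1 else if (2 * H : ℤ) ∣ x + 1 + j then -1 else 0

/-- Second round data from signs. -/
def data₂ (H : ℕ) (σ : ℕ → ℝ) (x : ℤ) : ℝ := ∑ j ∈ range H, σ j * atom₂ H j x

variable {H : ℕ}

theorem eq_of_dvd_sub {G a b : ℤ} (h : G ∣ a - b) (ha : 0 ≤ a) (ha' : a < G) (hb : 0 ≤ b)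
    (hb' : b < G) : a = b := by
  obtain ⟨q, hq⟩ := h
  have h1 : q = 0 := by
    rcases lt_trichotomy q 0 with h | h | h
    · nlinarith
    · exact h
    · nlinarith
  rw [h1, mul_zero] at hq
  omega

theorem weight₁_fix (H : ℕ) : Weight₁ H (fix₁ H) where
  periodic x := by
    have : (H : ℤ) ∣ x + 2 * H ↔ (H : ℤ) ∣ x := dvd_add_left (dvd_mul_left _ _)
    simp only [fix₁, this]
  symm x := by simp only [fix₁, dvd_neg]; split <;> simp
  le x := by simp only [fix₁]; split <;> simp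

theorem weight₁_atom {k : ℕ} (hk : k ∈ Ioo 0 H) : Weight₁ H (atom₁ H k) where
  periodic x := by
    have e1 : (2 * H : ℤ) ∣ x + 2 * H - k ↔ (2 * H : ℤ) ∣ x - k := by
      rw [show x + 2 * H - k = x - k + 2 * (H : ℤ) by ring, dvd_add_self_right]
    have e2 : (2 * H : ℤ) ∣ x + 2 * H + k ↔ (2 * H : ℤ) ∣ x + k := by
      rw [show x + 2 * H + k = x + k + 2 * (H : ℤ) by ring, dvd_add_self_right]
    simp only [atom₁, e1, e2]
  symm x := by
    have e1 : (2 * H : ℤ) ∣ -x - k ↔ (2 * H : ℤ) ∣ x + k := by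
      rw [show -x - k = -(x + k) by ring, dvd_neg]
    have e2 : (2 * H : ℤ) ∣ -x + k ↔ (2 * H : ℤ) ∣ x - k := by
      rw [show -x + k = -(x - k) by ring, dvd_neg]
    simp only [atom₁, e1, e2]
    by_cases h1 : (2 * H : ℤ) ∣ x + k
    · have h2 : ¬ (2 * H : ℤ) ∣ x - k := by
        intro h2
        have h3 := dvd_sub h1 h2
        rw [show x + k - (x - k) = 2 * (k : ℤ) by ring] at h3
        have h4 := Int.le_of_dvd (by have := (mem_Ioo.1 hk).1; omega) h3
        have := (mem_Ioo.1 hk).2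
        omega
      simp [h1, h2]
    · by_cases h2 : (2 * H : ℤ) ∣ x - k <;> simp [h1, h2]
  le x := by
    simp only [atom₁]
    split_ifs <;> simp

theorem sign₁_data {σ : ℕ → ℝ} (hσ : ∀ k, σ k = 1 ∨ σ k = -1) (hH : 0 < H) :
    Sign₁ H (data₁ H σ) := by
  have hfix : ∀ x : ℤ, (H : ℤ) ∣ x → data₁ H σ x = 1 := by
    intro x hx
    rw [data₁, fix₁, if_pos hx, sum_eq_zero, add_zero]
    intro k hk
    have hk' := mem_Ioo.1 hk
    have h : ∀ s : ℤ, (s = k ∨ s = -k) → ¬ (2 * H : ℤ) ∣ x + s := by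
      intro s hs h
      have h3 : (H : ℤ) ∣ s := (dvd_add_right hx).1 (dvd_trans (dvd_mul_left _ _) h)
      have h4 : (H : ℤ) ∣ (k : ℤ) := by
        rcases hs with rfl | rfl
        · exact h3
        · rwa [dvd_neg] at h3
      have := Int.le_of_dvd (by omega) h4
      omega
    have h1 : ¬ (2 * H : ℤ) ∣ x - k := by rw [sub_eq_add_neg]; exact h _ (Or.inr rfl)
    rw [atom₁, if_neg h1, if_neg (h _ (Or.inl rfl)), mul_zero]
  have hfree : ∀ x : ℤ, ¬ (H : ℤ) ∣ x →
      data₁ H σ x = Complex.I ∨ data₁ H σ x = -Complex.I := by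
    intro x hx
    set e := x % (2 * H : ℤ) with he
    have he0 : 0 ≤ e := Int.emod_nonneg _ (by omega)
    have he1 : e < 2 * H := Int.emod_lt_of_pos _ (by omega)
    have hxe : (2 * H : ℤ) ∣ x - e := Int.dvd_self_sub_emod
    have hne : e ≠ 0 ∧ e ≠ H := by
      constructor <;> intro h <;> apply hx <;> rw [h] at hxe <;>
        have h' := dvd_trans (dvd_mul_left (H : ℤ) 2) hxe
      · simpa using h'
      · exact (dvd_sub_self_right).1 h'
    obtain ⟨k, hk, hkk⟩ : ∃ k : ℕ, k ∈ Ioo 0 H ∧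
        (((2 * H : ℤ) ∣ x - k) ∨ (¬ (2 * H : ℤ) ∣ x - k ∧ (2 * H : ℤ) ∣ x + k)) := by
      rcases lt_or_gt_of_ne hne.2 with h | h
      · exact ⟨e.toNat, mem_Ioo.2 ⟨by omega, by omega⟩,
          Or.inl (by rwa [Int.toNat_of_nonneg he0])⟩
      · refine ⟨(2 * (H : ℤ) - e).toNat, mem_Ioo.2 ⟨by omega, by omega⟩, Or.inr ⟨?_, ?_⟩⟩ <;>
          rw [Int.toNat_of_nonneg (show 0 ≤ 2 * (H : ℤ) - e by omega)]
        · intro hd
          have := eq_of_dvd_sub (show (2 * H : ℤ) ∣ (2 * H - e) - e by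
            have := dvd_sub hxe hd
            rwa [show x - e - (x - (2 * H - e)) = (2 * H - e) - e by ring] at this)
            (by omega) (by omega) he0 he1
          omega
        · rw [show x + (2 * H - e) = x - e + 2 * (H : ℤ) by ring, dvd_add_self_right]
          exact hxe
    rw [data₁, fix₁, if_neg hx, zero_add, sum_eq_single_of_mem k hk]
    · rcases hkk with h | ⟨h, h'⟩
      · rw [atom₁, if_pos h]
        rcases hσ k with s | s <;> simp [s]
      · rw [atom₁, if_neg h, if_pos h']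
        rcases hσ k with s | s <;> simp [s]
    · intro k' hk' hne'
      have a := mem_Ioo.1 hk
      have b := mem_Ioo.1 hk'
      have key : ∀ u v : ℤ, (u = k' ∨ u = 2 * H - k') → (v = k ∨ v = 2 * H - k) →
          (2 * H : ℤ) ∣ u - v → False := by
        intro u v hu hv h
        have := eq_of_dvd_sub h (by omega) (by omega) (by omega) (by omega)
        omega
      rw [atom₁, if_neg, if_neg, mul_zero] <;> intro h1 <;> rcases hkk with h | ⟨-, h⟩
      · exact key (2 * H - k') k (Or.inr rfl) (Or.inl rfl) (by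
          have := dvd_add (dvd_sub h h1) (dvd_refl (2 * H : ℤ))
          rwa [show x - k - (x + k') + 2 * H = 2 * H - k' - (k : ℤ) by ring] at this)
      · exact key k' k (Or.inl rfl) (Or.inl rfl) (by
          have := dvd_sub h1 h
          rwa [show x + k' - (x + k) = k' - (k : ℤ) by ring] at this)
      · exact key k' k (Or.inl rfl) (Or.inl rfl) (by
          have := dvd_sub h h1
          rwa [show x - k - (x - k') = k' - (k : ℤ) by ring] at this)
      · exact key k' (2 * H - k) (Or.inl rfl) (Or.inr rfl) (by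
          have := dvd_sub (dvd_sub h h1) (dvd_refl (2 * H : ℤ))
          rwa [show x + k - (x - k') - 2 * H = k' - (2 * (H : ℤ) - k) by ring] at this)
  refine ⟨⟨fun x => ?_, fun x => ?_, fun x => ?_⟩, hfix, hfree⟩
  · simp only [data₁]
    rw [(weight₁_fix H).periodic x]
    exact congrArg _ (sum_congr rfl fun k hk => by rw [(weight₁_atom hk).periodic x])
  · simp only [data₁, map_add, map_sum, map_mul, Complex.conj_ofReal]
    rw [(weight₁_fix H).symm x]
    exact congrArg _ (sum_congr rfl fun k hk => by rw [(weight₁_atom hk).symm x])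
  · by_cases h : (H : ℤ) ∣ x
    · simp [hfix x h]
    · rcases hfree x h with e | e <;> simp [e]

theorem weight₂_atom {j : ℕ} (hj : j ∈ range H) : Weight₂ H (atom₂ H j) where
  periodic x := by
    have e1 : (2 * H : ℤ) ∣ x + 2 * H - j ↔ (2 * H : ℤ) ∣ x - j := by
      rw [show x + 2 * H - j = x - j + 2 * (H : ℤ) by ring, dvd_add_self_right]
    have e2 : (2 * H : ℤ) ∣ x + 2 * H + 1 + j ↔ (2 * H : ℤ) ∣ x + 1 + j := by
      rw [show x + 2 * H + 1 + j = x + 1 + j + 2 * (H : ℤ) by ring, dvd_add_self_right]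
    simp only [atom₂, e1, e2]
  symm x := by
    have e1 : (2 * H : ℤ) ∣ -1 - x - j ↔ (2 * H : ℤ) ∣ x + 1 + j := by
      rw [show -1 - x - j = -(x + 1 + j) by ring, dvd_neg]
    have e2 : (2 * H : ℤ) ∣ -1 - x + 1 + j ↔ (2 * H : ℤ) ∣ x - j := by
      rw [show -1 - x + 1 + j = -(x - j) by ring, dvd_neg]
    simp only [atom₂, e1, e2]
    by_cases h1 : (2 * H : ℤ) ∣ x + 1 + j
    · have h2 : ¬ (2 * H : ℤ) ∣ x - j := by
        intro h2
        have h3 := dvd_sub h1 h2
        rw [show x + 1 + j - (x - j) = 2 * (j : ℤ) + 1 by ring] at h3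
        have h4 := Int.le_of_dvd (by omega) h3
        have := mem_range.1 hj
        omega
      simp [h1, h2]
    · by_cases h2 : (2 * H : ℤ) ∣ x - j <;> simp [h1, h2]
  le x := by
    simp only [atom₂]
    split_ifs <;> simp

theorem data₂_spec {σ : ℕ → ℝ} (hσ : ∀ k, σ k = 1 ∨ σ k = -1) (hH : 0 < H) :
    Weight₂ H (data₂ H σ) ∧ ∀ x, data₂ H σ x = 1 ∨ data₂ H σ x = -1 := by
  have hpm : ∀ x, data₂ H σ x = 1 ∨ data₂ H σ x = -1 := by
    intro x
    set e := x % (2 * H : ℤ) with he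
    have he0 : 0 ≤ e := Int.emod_nonneg _ (by omega)
    have he1 : e < 2 * H := Int.emod_lt_of_pos _ (by omega)
    have hxe : (2 * H : ℤ) ∣ x - e := Int.dvd_self_sub_emod
    obtain ⟨j, hj, hjj⟩ : ∃ j : ℕ, j ∈ range H ∧
        (((2 * H : ℤ) ∣ x - j) ∨ (¬ (2 * H : ℤ) ∣ x - j ∧ (2 * H : ℤ) ∣ x + 1 + j)) := by
      rcases lt_or_ge e (H : ℤ) with h | h
      · exact ⟨e.toNat, mem_range.2 (by omega), Or.inl (by rwa [Int.toNat_of_nonneg he0])⟩
      · refine ⟨(2 * (H : ℤ) - 1 - e).toNat, mem_range.2 (by omega), Or.inr ⟨?_, ?_⟩⟩ <;>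
          rw [Int.toNat_of_nonneg (show 0 ≤ 2 * (H : ℤ) - 1 - e by omega)]
        · intro hd
          have := eq_of_dvd_sub (show (2 * H : ℤ) ∣ (2 * H - 1 - e) - e by
            have := dvd_sub hxe hd
            rwa [show x - e - (x - (2 * H - 1 - e)) = (2 * H - 1 - e) - e by ring] at this)
            (by omega) (by omega) he0 he1
          omega
        · rw [show x + 1 + (2 * H - 1 - e) = x - e + 2 * (H : ℤ) by ring, dvd_add_self_right]
          exact hxe
    rw [data₂, sum_eq_single_of_mem j hj]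
    · rcases hjj with h | ⟨h, h'⟩
      · rw [atom₂, if_pos h]
        rcases hσ j with s | s <;> simp [s]
      · rw [atom₂, if_neg h, if_pos h']
        rcases hσ j with s | s <;> simp [s]
    · intro j' hj' hne'
      have a := mem_range.1 hj
      have b := mem_range.1 hj'
      have key : ∀ u v : ℤ, (u = j' ∨ u = 2 * H - 1 - j') → (v = j ∨ v = 2 * H - 1 - j) →
          (2 * H : ℤ) ∣ u - v → False := by
        intro u v hu hv h
        have := eq_of_dvd_sub h (by omega) (by omega) (by omega) (by omega)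
        omega
      rw [atom₂, if_neg, if_neg, mul_zero] <;> intro h1 <;> rcases hjj with h | ⟨-, h⟩
      · exact key (2 * H - 1 - j') j (Or.inr rfl) (Or.inl rfl) (by
          have := dvd_add (dvd_sub h h1) (dvd_refl (2 * H : ℤ))
          rwa [show x - j - (x + 1 + j') + 2 * H = 2 * H - 1 - j' - (j : ℤ) by ring] at this)
      · exact key j' j (Or.inl rfl) (Or.inl rfl) (by
          have := dvd_sub h1 h
          rwa [show x + 1 + j' - (x + 1 + j) = j' - (j : ℤ) by ring] at this)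
      · exact key j' j (Or.inl rfl) (Or.inl rfl) (by
          have := dvd_sub h h1
          rwa [show x - j - (x - j') = j' - (j : ℤ) by ring] at this)
      · exact key j' (2 * H - 1 - j) (Or.inl rfl) (Or.inr rfl) (by
          have := dvd_sub (dvd_sub h h1) (dvd_refl (2 * H : ℤ))
          rwa [show x + 1 + j - (x - j') - 2 * H = j' - (2 * (H : ℤ) - 1 - j) by ring] at this)
  refine ⟨⟨fun x => ?_, fun x => ?_, fun x => ?_⟩, hpm⟩
  · simp only [data₂]
    exact sum_congr rfl fun j hj => by rw [(weight₂_atom hj).periodic x]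
  · simp only [data₂, ← sum_neg_distrib]
    exact sum_congr rfl fun j hj => by rw [(weight₂_atom hj).symm x, mul_neg]
  · rcases hpm x with e | e <;> simp [e]

theorem g₁_data (η : ℝ) (r : ℝ → ℝ) (σ : ℕ → ℝ) (θ : ℝ) :
    g₁ η H r (data₁ H σ) θ =
      g₁ η H r (fix₁ H) θ + ∑ k ∈ Ioo 0 H, (σ k : ℂ) * g₁ η H r (atom₁ H k) θ := by
  simp only [g₁, data₁, add_mul, sum_mul, mul_assoc]

theorem g₂_data (η : ℝ) (r : ℝ → ℝ) (c : ℤ → ℂ) (σ : ℕ → ℝ) (θ : ℝ) :
    g₂ η H r c (data₂ H σ) θ = ∑ j ∈ range H, (σ j : ℂ) * g₂ η H r c (atom₂ H j) θ := by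
  simp only [g₂, data₂]
  push_cast
  simp only [sum_mul, mul_assoc]

/-- The pieces in use. -/
noncomputable def used₁ (η : ℝ) (H : ℕ) (r : ℝ → ℝ) : Finset ℕ := by
  classical
  exact (Ioo 0 H).filter fun k => ∃ θ, ((k : ℝ) + (-1 / 2)) / (2 * H : ℕ) ≤ θ ∧
    θ ≤ ((k : ℝ) + 1 + (-1 / 2)) / (2 * H : ℕ) ∧ r θ < 1 - η

/-- The junctions in use. -/
noncomputable def used₂ (η : ℝ) (H : ℕ) (r : ℝ → ℝ) : Finset ℕ := by
  classical
  exact (range H).filter fun k => ∃ θ, ((k : ℝ) + 0) / (2 * H : ℕ) ≤ θ ∧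
    θ ≤ ((k : ℝ) + 1 + 0) / (2 * H : ℕ) ∧ r θ < 1 - η

theorem unused₁ {η L : ℝ} {r : ℝ → ℝ} (hp : Function.Periodic r 1) (he : ∀ θ, r (-θ) = r θ)
    (hH : 0 < H) {k : ℕ} (hk : k ∈ Ioo 0 H) (hu : k ∉ used₁ η H r)
    (hn : Nice L (1 - η) r (g₁ η H r (atom₁ H k))) (θ : ℝ) : g₁ η H r (atom₁ H k) θ = 0 := by
  classical
  by_contra hne
  have hlt : r θ < 1 - η := not_le.1 fun h => hne (hn.supp θ h)
  have hat : atom₁ H k (round (2 * H * θ)) ≠ 0 := fun h => hne (by rw [g₁, h, zero_mul])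
  have hr := abs_le.1 (abs_sub_round (2 * (H : ℝ) * θ))
  have hH' : (0 : ℝ) < 2 * H := by positivity
  apply hu
  rw [used₁, mem_filter]
  refine ⟨hk, ?_⟩
  rw [atom₁] at hat
  split_ifs at hat with h1 h2
  · obtain ⟨q, hq⟩ := h1
    have hq' : (round (2 * (H : ℝ) * θ) : ℝ) = k + 2 * H * q := by
      exact_mod_cast (show round (2 * (H : ℝ) * θ) = k + 2 * H * q by omega)
    refine ⟨θ - q * 1, ?_, ?_, by rwa [hp.sub_int_mul_eq]⟩ <;> push_cast
    · rw [div_le_iff₀ hH']; nlinarith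
    · rw [le_div_iff₀ hH']; nlinarith
  · obtain ⟨q, hq⟩ := h2
    have hq' : (round (2 * (H : ℝ) * θ) : ℝ) = -k + 2 * H * q := by
      exact_mod_cast (show round (2 * (H : ℝ) * θ) = -k + 2 * H * q by omega)
    refine ⟨-(θ - q * 1), ?_, ?_, by rwa [he, hp.sub_int_mul_eq]⟩ <;> push_cast
    · rw [div_le_iff₀ hH']; nlinarith
    · rw [le_div_iff₀ hH']; nlinarith
  · exact (hat rfl).elim

theorem unused₂ {η L : ℝ} {r : ℝ → ℝ} (hp : Function.Periodic r 1) (he : ∀ θ, r (-θ) = r θ)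
    (hH : 0 < H) {c : ℤ → ℂ} {j : ℕ} (hj : j ∈ range H) (hu : j ∉ used₂ η H r)
    (hn : Nice L (1 - η) r (g₂ η H r c (atom₂ H j))) (θ : ℝ) :
    g₂ η H r c (atom₂ H j) θ = 0 := by
  classical
  by_contra hne
  have hlt : r θ < 1 - η := not_le.1 fun h => hne (hn.supp θ h)
  have hat : atom₂ H j ⌊2 * (H : ℝ) * θ⌋ ≠ 0 := fun h => hne (by rw [g₂, h]; simp)
  have h3 := Int.floor_le (2 * (H : ℝ) * θ)
  have h4 := Int.lt_floor_add_one (2 * (H : ℝ) * θ)
  have hH' : (0 : ℝ) < 2 * H := by positivity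
  apply hu
  rw [used₂, mem_filter]
  refine ⟨hj, ?_⟩
  rw [atom₂] at hat
  split_ifs at hat with h1 h2
  · obtain ⟨q, hq⟩ := h1
    have hq' : (⌊2 * (H : ℝ) * θ⌋ : ℝ) = j + 2 * H * q := by
      exact_mod_cast (show ⌊2 * (H : ℝ) * θ⌋ = j + 2 * H * q by omega)
    refine ⟨θ - q * 1, ?_, ?_, by rwa [hp.sub_int_mul_eq]⟩ <;> push_cast
    · rw [div_le_iff₀ hH']; nlinarith
    · rw [le_div_iff₀ hH']; nlinarith
  · obtain ⟨q, hq⟩ := h2
    have hq' : (⌊2 * (H : ℝ) * θ⌋ : ℝ) = -j - 1 + 2 * H * q := by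
      exact_mod_cast (show ⌊2 * (H : ℝ) * θ⌋ = -j - 1 + 2 * H * q by omega)
    refine ⟨-(θ - q * 1), ?_, ?_, by rwa [he, hp.sub_int_mul_eq]⟩ <;> push_cast
    · rw [div_le_iff₀ hH']; nlinarith
    · rw [le_div_iff₀ hH']; nlinarith
  · exact (hat rfl).elim

theorem integral_g₁_le {η L : ℝ} {r : ℝ → ℝ} (hH : 0 < H) (c : ℤ → ℂ) (P : Finset ℕ)
    (hP : #P ≤ 2) (hc : ∀ k < 2 * H, k ∉ P → c (k : ℕ) = 0)
    (hn : Nice L (1 - η) r (g₁ η H r c)) (hL : 0 ≤ L) :
    (∫ θ in (0 : ℝ)..1, ‖g₁ η H r c θ‖) ≤ 1 / H := by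
  have hcont : Continuous (g₁ η H r c) :=
    (LipschitzWith.of_dist_le_mul (K := L.toNNReal) fun x y => by
      rw [dist_eq_norm, Real.dist_eq, Real.coe_toNNReal _ hL]
      exact hn.lip x y).continuous
  refine (integral_le_card _ hcont.norm (fun θ => by rw [hn.periodic]) (2 * H) (by omega) (-1 / 2)
    hn.le P fun k hk hkP θ h1 h2 => ?_).trans ?_
  · push_cast at h1 h2
    have hH' : (0 : ℝ) < 2 * H := by positivity
    rw [div_lt_iff₀ hH'] at h1
    rw [lt_div_iff₀ hH'] at h2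
    have hround : round (2 * (H : ℝ) * θ) = (k : ℤ) := by
      rw [round_eq, Int.floor_eq_iff]; push_cast; constructor <;> nlinarith
    rw [g₁, hround, hc k hk hkP, zero_mul, norm_zero]
  · have : (0 : ℝ) < H := by exact_mod_cast hH
    rw [div_le_div_iff₀ (by positivity) this]
    have : (#P : ℝ) ≤ 2 := by exact_mod_cast hP
    push_cast
    nlinarith

theorem integral_g₂_le {η L : ℝ} {r : ℝ → ℝ} (hH : 0 < H) (c : ℤ → ℂ) (d : ℤ → ℝ)
    (P : Finset ℕ) (hP : #P ≤ 2) (hd : ∀ k < 2 * H, k ∉ P → d (k : ℕ) = 0)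
    (hn : Nice L (1 - η) r (g₂ η H r c d)) (hL : 0 ≤ L) :
    (∫ θ in (0 : ℝ)..1, ‖g₂ η H r c d θ‖) ≤ 1 / H := by
  have hcont : Continuous (g₂ η H r c d) :=
    (LipschitzWith.of_dist_le_mul (K := L.toNNReal) fun x y => by
      rw [dist_eq_norm, Real.dist_eq, Real.coe_toNNReal _ hL]
      exact hn.lip x y).continuous
  refine (integral_le_card _ hcont.norm (fun θ => by rw [hn.periodic]) (2 * H) (by omega) 0
    hn.le P fun k hk hkP θ h1 h2 => ?_).trans ?_
  · push_cast at h1 h2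
    have hH' : (0 : ℝ) < 2 * H := by positivity
    rw [div_lt_iff₀ hH'] at h1
    rw [lt_div_iff₀ hH'] at h2
    have hfloor : ⌊2 * (H : ℝ) * θ⌋ = (k : ℤ) := by
      rw [Int.floor_eq_iff]; push_cast; constructor <;> nlinarith
    rw [g₂, hfloor, hd k hk hkP]
    simp
  · have : (0 : ℝ) < H := by exact_mod_cast hH
    rw [div_le_div_iff₀ (by positivity) this]
    have : (#P : ℝ) ≤ 2 := by exact_mod_cast hP
    push_cast
    nlinarith

theorem atom₁_eq_zero {k x : ℕ} (hk : k ∈ Ioo 0 H) (hx : x < 2 * H)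
    (hne : x ∉ ({k, 2 * H - k} : Finset ℕ)) : atom₁ H k (x : ℕ) = 0 := by
  have hk' := mem_Ioo.1 hk
  simp only [mem_insert, mem_singleton, not_or] at hne
  rw [atom₁, if_neg, if_neg] <;> intro h
  · have h' := dvd_sub h (dvd_refl (2 * H : ℤ))
    rw [show (x : ℤ) + k - 2 * H = x - (2 * H - k) by ring] at h'
    have := eq_of_dvd_sub h' (by omega) (by omega) (by omega) (by omega)
    omega
  · have := eq_of_dvd_sub h (by omega) (by omega) (by omega) (by omega)
    omega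

theorem atom₂_eq_zero {j x : ℕ} (hj : j ∈ range H) (hx : x < 2 * H)
    (hne : x ∉ ({j, 2 * H - 1 - j} : Finset ℕ)) : atom₂ H j (x : ℕ) = 0 := by
  have hj' := mem_range.1 hj
  simp only [mem_insert, mem_singleton, not_or] at hne
  rw [atom₂, if_neg, if_neg] <;> intro h
  · have h' := dvd_sub h (dvd_refl (2 * H : ℤ))
    rw [show (x : ℤ) + 1 + j - 2 * H = x - (2 * H - 1 - j) by ring] at h'
    have := eq_of_dvd_sub h' (by omega) (by omega) (by omega) (by omega)
    omega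
  · have := eq_of_dvd_sub h (by omega) (by omega) (by omega) (by omega)
    omega

theorem fix₁_eq_zero {x : ℕ} (hx : x < 2 * H) (hne : x ∉ ({0, H} : Finset ℕ)) :
    fix₁ H (x : ℕ) = 0 := by
  simp only [mem_insert, mem_singleton, not_or] at hne
  rw [fix₁, if_neg]
  intro h
  obtain ⟨q, hq⟩ := h
  have h0 : (0 : ℤ) < x := by omega
  have h1 : 0 < q := by nlinarith
  have h2 : q < 2 := by nlinarith
  rw [show q = 1 by omega, mul_one] at hq
  omega

end Vale.Agent.P110.Exist.Fill
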